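/-
P134 (De Giorgi): the second variation tested with absolute values of derivatives.
-/
import Vale.Agent.P134.Limit.Stable

open MeasureTheory Filter Topology
open scoped InnerProductSpace

noncomputable section

namespace Vale.Agent.P134.Periodic

variable {d : ℕ}

/-- The linearised operator. -/
def Lop (c ψ : Ed d → ℝ) (x : Ed d) : ℝ := -Laplacian.laplacian ψ x + c x * ψ x

lemma continuous_lap {ψ : Ed d → ℝ} (hψ : ContDiff ℝ 2 ψ) :
    Continuous fun x => Laplacian.laplacian ψ x := by
  rw [funext (lap_eq hψ)]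
  exact continuous_finsetSum _ fun i _ => continuous_pd (contDiff_pd hψ i) one_ne_zero i

lemma lap_zero_off {ψ : Ed d → ℝ} (hψ : ContDiff ℝ 2 ψ) {x : Ed d} (hx : x ∉ tsupport ψ) :
    Laplacian.laplacian ψ x = 0 := by
  rw [lap_eq hψ]
  refine Finset.sum_eq_zero fun i _ => ?_
  have hev : (fun y => pd ψ i y) =ᶠ[𝓝 x] fun _ => (0 : ℝ) := by
    filter_upwards [(isClosed_tsupport ψ).isOpen_compl.mem_nhds hx] with y hy
    exact pd_zero_off hy i
  rw [hev.fderiv_eq]; simp

lemma Lop_zero_off {c ψ : Ed d → ℝ} (hψ : ContDiff ℝ 2 ψ) {x : Ed d} (hx : x ∉ tsupport ψ) :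
    Lop c ψ x = 0 := by
  rw [Lop, lap_zero_off hψ hx, image_eq_zero_of_notMem_tsupport hx]; ring

lemma continuous_Lop {c ψ : Ed d → ℝ} (hc : Continuous c) (hψ : ContDiff ℝ 2 ψ) :
    Continuous (Lop c ψ) :=
  (continuous_lap hψ).neg.add (hc.mul hψ.continuous)

lemma lap_sum {ι : Type*} (s : Finset ι) {f : ι → Ed d → ℝ} (hf : ∀ k ∈ s, ContDiff ℝ 2 (f k))
    (x : Ed d) : Laplacian.laplacian (fun y => ∑ k ∈ s, f k y) x
      = ∑ k ∈ s, Laplacian.laplacian (f k) x := by
  classical
  induction s using Finset.induction_on with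
  | empty => simp [lap_eq (contDiff_const (c := (0 : ℝ))), pd]
  | insert a s ha ih =>
    have ha2 := hf a (Finset.mem_insert_self a s)
    have hs2 : ContDiff ℝ 2 fun y => ∑ k ∈ s, f k y :=
      ContDiff.sum fun k hk => hf k (Finset.mem_insert_of_mem hk)
    simp only [Finset.sum_insert ha]
    rw [show (fun y => f a y + ∑ k ∈ s, f k y) = f a + fun y => ∑ k ∈ s, f k y from rfl,
      ContDiffAt.laplacian_add ha2.contDiffAt hs2.contDiffAt,
      ih fun k hk => hf k (Finset.mem_insert_of_mem hk)]

/-- Cauchy-Schwarz for a nonnegative second variation. -/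
lemma form_cauchy {u φ ψ : Ed d → ℝ} (hu : Continuous u) (hst : Stable u) (hφ : ContDiff ℝ 1 φ)
    (hφc : HasCompactSupport φ) (hψ : ContDiff ℝ 2 ψ) (hψc : HasCompactSupport ψ) :
    (∫ x, φ x * Lop (fun y => 3 * u y ^ 2 - 1) ψ x) ^ 2
      ≤ (∫ x, (G φ φ x + (3 * u x ^ 2 - 1) * φ x ^ 2))
        * ∫ x, ψ x * Lop (fun y => 3 * u y ^ 2 - 1) ψ x := by
  set c : Ed d → ℝ := fun y => 3 * u y ^ 2 - 1 with hcdef
  have hc : Continuous c := ((hu.pow 2).const_mul 3).sub continuous_const
  have hψ1 : ContDiff ℝ 1 ψ := hψ.of_le (by norm_num)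
  have hB : ∀ {f : Ed d → ℝ}, ContDiff ℝ 1 f → HasCompactSupport f →
      ∫ x, f x * Lop c ψ x = ∫ x, (G f ψ x + c x * (f x * ψ x)) := by
    intro f hf hfc
    have i1 : Integrable fun x => f x * Laplacian.laplacian ψ x :=
      integrable_off (hf.continuous.mul (continuous_lap hψ)) hfc fun x hx => by
        show f x * _ = 0
        rw [image_eq_zero_of_notMem_tsupport hx]; ring
    have i2 : Integrable fun x => c x * (f x * ψ x) :=
      integrable_off (hc.mul (hf.continuous.mul hψ.continuous)) hfc fun x hx => by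
        show c x * (f x * ψ x) = 0
        rw [image_eq_zero_of_notMem_tsupport hx]; ring
    have i3 : Integrable (G f ψ) :=
      integrable_off (continuous_G hf (by norm_num) hψ (by norm_num)) hfc
        fun x hx => G_zero_off_left hx ψ
    have e : (fun x => f x * Lop c ψ x)
        = fun x => -(f x * Laplacian.laplacian ψ x) + c x * (f x * ψ x) := by
      funext x; simp only [Lop]; ring
    have i1' : Integrable fun x => -(f x * Laplacian.laplacian ψ x) := i1.neg
    rw [e, integral_add i1' i2, integral_neg, ibp hf hfc hψ, neg_neg, integral_add i3 i2]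
  set A := ∫ x, (G φ φ x + c x * φ x ^ 2) with hA
  set B := ∫ x, φ x * Lop c ψ x with hBdef
  set C := ∫ x, ψ x * Lop c ψ x with hCdef
  have key : ∀ t : ℝ, 0 ≤ C * (t * t) + 2 * B * t + A := by
    intro t
    have h0 := hst (fun x => φ x + t * ψ x) (hφ.add (contDiff_const.mul hψ1))
      (hφc.add hψc.mul_left)
    have hi : ∀ {f g : Ed d → ℝ}, ContDiff ℝ 1 f → HasCompactSupport f → ContDiff ℝ 1 g →
        Integrable fun x => G f g x + c x * (f x * g x) := fun {f g} hf hfc hg =>
      integrable_off ((continuous_G hf (by norm_num) hg (by norm_num)).add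
        (hc.mul (hf.continuous.mul hg.continuous))) hfc fun x hx => by
          show G f g x + c x * (f x * g x) = 0
          rw [image_eq_zero_of_notMem_tsupport hx, G_zero_off_left hx]; ring
    have e : (fun x => G (fun y => φ y + t * ψ y) (fun y => φ y + t * ψ y) x
        + c x * (φ x + t * ψ x) ^ 2)
        = fun x => ((G φ φ x + c x * (φ x * φ x)) + 2 * t * (G φ ψ x + c x * (φ x * ψ x)))
          + t * t * (G ψ ψ x + c x * (ψ x * ψ x)) := by
      funext x
      have hp : ∀ i, pd (fun y => φ y + t * ψ y) i x = pd φ i x + t * pd ψ i x := fun i => by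
        simp [pd, fderiv_fun_add (hφ.differentiable (by norm_num) x)
          ((hψ1.differentiable (by norm_num) x).const_mul t),
          fderiv_const_mul (hψ1.differentiable (by norm_num) x)]
      have hG : G (fun y => φ y + t * ψ y) (fun y => φ y + t * ψ y) x
          = G φ φ x + 2 * t * G φ ψ x + t * t * G ψ ψ x := by
        simp only [G, hp, Finset.mul_sum, ← Finset.sum_add_distrib]
        exact Finset.sum_congr rfl fun i _ => by ring
      rw [hG]; ring
    change 0 ≤ ∫ x, (G (fun y => φ y + t * ψ y) (fun y => φ y + t * ψ y) x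
      + c x * (φ x + t * ψ x) ^ 2) at h0
    have j1 := hi hφ hφc hφ
    have j2 := (hi hφ hφc hψ1).const_mul (2 * t)
    have j3 := (hi hψ1 hψc hψ1).const_mul (t * t)
    have j12 : Integrable fun x =>
        (G φ φ x + c x * (φ x * φ x)) + 2 * t * (G φ ψ x + c x * (φ x * ψ x)) := j1.add j2
    rw [e, integral_add j12 j3, integral_add j1 j2, integral_const_mul, integral_const_mul,
      ← hB hφ hφc, ← hB hψ1 hψc] at h0
    have e2 : ∫ x, (G φ φ x + c x * (φ x * φ x)) = A := by simp only [hA, sq]
    rw [e2] at h0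
    linarith
  have := discrim_le_zero key
  unfold discrim at this
  nlinarith

/-- The form is the pairing with the operator. -/
lemma form_self {u P : Ed d → ℝ} (hu : Continuous u) (hP : ContDiff ℝ 2 P)
    (hPc : HasCompactSupport P) :
    ∫ x, P x * Lop (fun y => 3 * u y ^ 2 - 1) P x
      = ∫ x, (G P P x + (3 * u x ^ 2 - 1) * P x ^ 2) := by
  have hc : Continuous fun y => 3 * u y ^ 2 - 1 := ((hu.pow 2).const_mul 3).sub continuous_const
  have hP1 : ContDiff ℝ 1 P := hP.of_le (by norm_num)
  have i1 : Integrable fun x => P x * Laplacian.laplacian P x :=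
    integrable_off (hP1.continuous.mul (continuous_lap hP)) hPc fun x hx => by
      show P x * _ = 0
      rw [image_eq_zero_of_notMem_tsupport hx]; ring
  have i2 : Integrable fun x => (3 * u x ^ 2 - 1) * P x ^ 2 :=
    integrable_off (hc.mul (hP1.continuous.pow 2)) hPc fun x hx => by
      show _ * P x ^ 2 = 0
      rw [image_eq_zero_of_notMem_tsupport hx]; ring
  have i3 : Integrable (G P P) :=
    integrable_off (continuous_G hP1 one_ne_zero hP1 one_ne_zero) hPc
      fun x hx => G_zero_off_left hx P
  have e : (fun x => P x * Lop (fun y => 3 * u y ^ 2 - 1) P x)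
      = fun x => -(P x * Laplacian.laplacian P x) + (3 * u x ^ 2 - 1) * P x ^ 2 := by
    funext x; simp only [Lop]; ring
  have i1' : Integrable fun x => -(P x * Laplacian.laplacian P x) := i1.neg
  rw [e, integral_add i1' i2, integral_neg, ibp hP1 hPc hP, neg_neg, integral_add i3 i2]

/-- For a stable solution, `η |∂ₐu|` tested against `P` is controlled by the energy of `η`. -/
lemma form_test {u : Ed d → ℝ} (h : Sol u) (hst : Stable u) (a : Ed d) {η P : Ed d → ℝ}
    (hη1 : ContDiff ℝ 1 η) (hηc : HasCompactSupport η) (hP2 : ContDiff ℝ 2 P)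
    (hPc : HasCompactSupport P) :
    (∫ x, η x * |Dd u a x| * Lop (fun y => 3 * u y ^ 2 - 1) P x) ^ 2
      ≤ (∫ x, Dd u a x ^ 2 * G η η x)
        * ∫ x, (G P P x + (3 * u x ^ 2 - 1) * P x ^ 2) := by
  set c : Ed d → ℝ := fun y => 3 * u y ^ 2 - 1 with hcdef
  have hc : Continuous c := ((h.smooth.continuous.pow 2).const_mul 3).sub continuous_const
  have hcb : ∀ x, |c x| ≤ 4 := fun x => by
    obtain ⟨h1, h2⟩ := abs_le.1 (h.bdd x)
    rw [abs_le]; constructor <;> simp only [hcdef] <;> nlinarith
  obtain ⟨M0, hM00, hM0⟩ := exists_grad_bound d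
  set s : ℕ → ℝ := fun n => 1 / ((n : ℝ) + 1) with hsdef
  have hspos : ∀ n, 0 < s n := fun n => by positivity
  have hs1 : ∀ n, s n ≤ 1 := fun n => by
    rw [hsdef, div_le_one (by positivity)]; simp
  have hs0 : Tendsto s atTop (𝓝 0) := tendsto_one_div_add_atTop_nhds_zero_nat
  set w : ℕ → Ed d → ℝ := fun n => dq u a (s n) with hwdef
  have hw2 : ∀ n, ContDiff ℝ 2 (w n) := fun n => contDiff_dq h.smooth _ _
  set M := M0 * ‖a‖ with hM
  have hM' : 0 ≤ M := mul_nonneg hM00 (norm_nonneg _)
  have hwb : ∀ n x, |w n x| ≤ M := fun n x => abs_dq_le h.smooth (hM0 u h) a (hspos n) x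
  set we : ℕ → Ed d → ℝ := fun n x => √(w n x ^ 2 + s n ^ 2) with hwedef
  have hw0 : ∀ n x, 0 < w n x ^ 2 + s n ^ 2 := fun n x => by
    have := hspos n; positivity
  have hwe1 : ∀ n, ContDiff ℝ 1 (we n) := fun n =>
    ((((hw2 n).of_le (by norm_num)).pow 2).add contDiff_const).sqrt fun x => (hw0 n x).ne'
  have hwesq : ∀ n x, we n x * we n x = w n x * w n x + s n * s n := fun n x => by
    simp only [hwedef]; rw [Real.mul_self_sqrt (hw0 n x).le]; ring
  have hwle : ∀ n x, |we n x| ≤ M + 1 := fun n x => by
    simp only [hwedef]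
    rw [abs_of_nonneg (Real.sqrt_nonneg _), Real.sqrt_le_left (by positivity)]
    have h1 : w n x ^ 2 ≤ M ^ 2 := by
      rw [← sq_abs]; exact pow_le_pow_left₀ (abs_nonneg _) (hwb n x) 2
    nlinarith [hs1 n, hspos n, h1, hM']
  set φ : ℕ → Ed d → ℝ := fun n x => η x * we n x with hφdef
  have hφ1 : ∀ n, ContDiff ℝ 1 (φ n) := fun n => hη1.mul (hwe1 n)
  have hφc : ∀ n, HasCompactSupport (φ n) := fun n => hηc.mul_right
  set Rn : ℕ → Ed d → ℝ := fun n x => w n x ^ 2 * G η η x
    + (c x - cc u a (s n) x) * η x ^ 2 * w n x ^ 2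
    + s n ^ 2 * (G η η x + c x * η x ^ 2) with hRdef
  have hGη := continuous_G hη1 one_ne_zero hη1 one_ne_zero
  have hRc : ∀ n, Continuous (Rn n) := fun n =>
    ((((hw2 n).continuous.pow 2).mul hGη).add
      (((hc.sub (continuous_cc h.smooth a (s n))).mul (hη1.continuous.pow 2)).mul
        ((hw2 n).continuous.pow 2))).add
      ((hGη.add (hc.mul (hη1.continuous.pow 2))).const_mul _)
  have hR0' : ∀ n, ∀ x ∉ tsupport η, Rn n x = 0 := fun n x hx => by
    simp only [hRdef, G_zero_off_left hx, image_eq_zero_of_notMem_tsupport hx]; ring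
  have hQn : ∀ n, ∫ x, (G (φ n) (φ n) x + c x * φ n x ^ 2) ≤ ∫ x, Rn n x := by
    intro n
    set ξ : Ed d → ℝ := fun x => η x * (η x * w n x) with hξdef
    have hw1 : ContDiff ℝ 1 (w n) := (hw2 n).of_le (by norm_num)
    have hξ : ContDiff ℝ 1 ξ := hη1.mul (hη1.mul hw1)
    have hξc : HasCompactSupport ξ := hηc.mul_right
    have h0 := ibp hξ hξc (hw2 n)
    have hev : ∀ x, Laplacian.laplacian (w n) x = cc u a (s n) x * w n x :=
      lap_dq h.smooth h.eqn a (s n)
    simp only [hev] at h0
    have iξ : Integrable fun x => ξ x * (cc u a (s n) x * w n x) :=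
      integrable_off (hξ.continuous.mul ((continuous_cc h.smooth a (s n)).mul
        (hw2 n).continuous)) hξc fun x hx => by
          show ξ x * _ = 0
          rw [image_eq_zero_of_notMem_tsupport hx]; ring
    have iG : Integrable (G ξ (w n)) :=
      integrable_off (continuous_G hξ one_ne_zero (hw2 n) (by norm_num)) hξc
        fun x hx => G_zero_off_left hx _
    have iR : Integrable (Rn n) := integrable_off (hRc n) hηc (hR0' n)
    have iφ : Integrable fun x => G (φ n) (φ n) x + c x * φ n x ^ 2 :=
      integrable_off ((continuous_G (hφ1 n) one_ne_zero (hφ1 n) one_ne_zero).add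
        (hc.mul ((hφ1 n).continuous.pow 2))) (hφc n) fun x hx => by
          show G (φ n) (φ n) x + c x * φ n x ^ 2 = 0
          rw [G_zero_off_left hx, image_eq_zero_of_notMem_tsupport hx]; ring
    have isum : Integrable fun x => ξ x * (cc u a (s n) x * w n x) + G ξ (w n) x := iξ.add iG
    have hsum : ∫ x, (ξ x * (cc u a (s n) x * w n x) + G ξ (w n) x) = 0 := by
      rw [integral_add iξ iG, h0]; ring
    have pw : ∀ x, G (φ n) (φ n) x + c x * φ n x ^ 2
        ≤ Rn n x + (ξ x * (cc u a (s n) x * w n x) + G ξ (w n) x) := by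
      intro x
      have hdη := hη1.differentiable one_ne_zero x
      have hdw := hw1.differentiable one_ne_zero x
      have hde := (hwe1 n).differentiable one_ne_zero x
      have hrel : ∀ i, we n x * pd (we n) i x = w n x * pd (w n) i x := by
        intro i
        have h1 : pd (fun y => we n y * we n y) i x
            = pd (fun y => w n y * w n y + s n * s n) i x := by
          rw [funext fun y => hwesq n y]
        have h2 : pd (fun y => w n y * w n y + s n * s n) i x
            = pd (fun y => w n y * w n y) i x := by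
          simp only [pd, fderiv_add_const]
        rw [h2, pd_mul hde hde, pd_mul hdw hdw] at h1
        linarith
      have hle : ∀ i, pd (φ n) i x * pd (φ n) i x ≤
          pd ξ i x * pd (w n) i x + w n x ^ 2 * (pd η i x * pd η i x)
            + s n ^ 2 * (pd η i x * pd η i x) := by
        intro i
        rw [hφdef, pd_mul hdη hde, hξdef, pd_mul hdη (hdη.fun_mul hdw), pd_mul hdη hdw]
        have hp : pd (we n) i x ^ 2 ≤ pd (w n) i x ^ 2 := by
          refine le_of_mul_le_mul_left ?_ (mul_self_pos.2 (by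
            simp only [hwedef]; exact (Real.sqrt_pos.2 (hw0 n x)).ne' : we n x ≠ 0))
          calc we n x * we n x * pd (we n) i x ^ 2
              = (we n x * pd (we n) i x) ^ 2 := by ring
            _ = w n x * w n x * pd (w n) i x ^ 2 := by rw [hrel i]; ring
            _ ≤ _ := by
              rw [hwesq]
              exact mul_le_mul_of_nonneg_right (by nlinarith [sq_nonneg (s n)]) (sq_nonneg _)
        calc (η x * pd (we n) i x + we n x * pd η i x)
              * (η x * pd (we n) i x + we n x * pd η i x)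
            = η x ^ 2 * pd (we n) i x ^ 2 + 2 * η x * pd η i x * (we n x * pd (we n) i x)
              + (we n x * we n x) * (pd η i x * pd η i x) := by ring
          _ ≤ η x ^ 2 * pd (w n) i x ^ 2 + 2 * η x * pd η i x * (w n x * pd (w n) i x)
              + (w n x * w n x + s n * s n) * (pd η i x * pd η i x) := by
            rw [hrel, hwesq]
            linarith [mul_le_mul_of_nonneg_left hp (sq_nonneg (η x))]
          _ = _ := by ring
      have hsle := Finset.sum_le_sum (s := Finset.univ) fun i _ => hle i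
      simp only [Finset.sum_add_distrib, ← Finset.mul_sum] at hsle
      change G (φ n) (φ n) x ≤ G ξ (w n) x + w n x ^ 2 * G η η x + s n ^ 2 * G η η x at hsle
      have hz : c x * φ n x ^ 2 = c x * η x ^ 2 * (w n x ^ 2 + s n ^ 2) := by
        simp only [hφdef]; rw [mul_pow, sq (we n x), hwesq]; ring
      rw [hz]
      simp only [hRdef, hξdef]
      linarith
    have := integral_mono iφ (iR.add isum) pw
    simp only [Pi.add_apply] at this
    rw [integral_add iR isum, hsum] at this
    linarith
  have hLc : Continuous (Lop c P) := continuous_Lop hc hP2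
  have hlimJ : Tendsto (fun n => ∫ x, φ n x * Lop c P x) atTop
      (𝓝 (∫ x, η x * |Dd u a x| * Lop c P x)) := by
    obtain ⟨B, hB⟩ := hPc.isCompact.exists_bound_of_continuousOn
      (hη1.continuous.mul hLc).continuousOn
    refine lim_integral hPc.isCompact (C := (M + 1) * B)
      (fun n => (hφ1 n).continuous.mul hLc)
      (fun n x hx => by rw [Lop_zero_off hP2 hx, mul_zero]) (fun n x hx => ?_) fun x => ?_
    · simp only [hφdef]
      rw [mul_assoc, mul_left_comm, abs_mul]
      exact mul_le_mul (hwle n x) (by simpa [Real.norm_eq_abs] using hB x hx) (abs_nonneg _)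
        (by positivity)
    · have h1 := (((tendsto_dq h.smooth a x hs0 hspos).pow 2).add (hs0.pow 2)).sqrt
      simp only [ne_eq, OfNat.ofNat_ne_zero, not_false_eq_true, zero_pow, add_zero,
        Real.sqrt_sq_eq_abs] at h1
      exact (h1.const_mul (η x)).mul_const _
  set A : ℝ := ∫ x, Dd u a x ^ 2 * G η η x with hA
  have hlimR : Tendsto (fun n => ∫ x, Rn n x) atTop (𝓝 A) := by
    obtain ⟨B, hB⟩ := hηc.isCompact.exists_bound_of_continuousOn
      (hGη.add (hη1.continuous.pow 2)).continuousOn
    refine lim_integral hηc.isCompact (C := M ^ 2 * B + 8 * B * M ^ 2 + 1 * (5 * B))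
      hRc hR0' (fun n x hx => ?_) fun x => ?_
    · have hG0 := G_self_nonneg η x
      have hB' : |G η η x + η x ^ 2| ≤ B := by simpa [Real.norm_eq_abs] using hB x hx
      rw [abs_of_nonneg (by positivity)] at hB'
      have hw' : w n x ^ 2 ≤ M ^ 2 := by
        rw [← sq_abs]; exact pow_le_pow_left₀ (abs_nonneg _) (hwb n x) 2
      have hd' : |c x - cc u a (s n) x| ≤ 8 :=
        le_trans (abs_sub _ _) (by linarith [hcb x, abs_cc_le h.bdd a (s n) x])
      refine le_trans (abs_add_le _ _) (add_le_add (le_trans (abs_add_le _ _)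
        (add_le_add ?_ ?_)) ?_)
      · rw [abs_of_nonneg (by positivity)]
        exact mul_le_mul hw' (by linarith [sq_nonneg (η x)]) hG0 (sq_nonneg _)
      · rw [abs_mul, abs_mul, abs_of_nonneg (sq_nonneg (η x)), abs_of_nonneg (sq_nonneg (w n x))]
        exact mul_le_mul (mul_le_mul hd' (by linarith) (sq_nonneg _) (by norm_num)) hw'
          (sq_nonneg _) (mul_nonneg (by norm_num) (by linarith [sq_nonneg (η x)]))
      · rw [abs_mul, abs_of_nonneg (sq_nonneg (s n))]
        refine mul_le_mul ?_ ?_ (abs_nonneg _) zero_le_one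
        · nlinarith [hs1 n, hspos n]
        · obtain ⟨c1, c2⟩ := abs_le.1 (hcb x)
          rw [abs_le]
          constructor <;> nlinarith [sq_nonneg (η x)]
    · have := ((((tendsto_dq h.smooth a x hs0 hspos).pow 2).mul_const (G η η x)).add
        ((((tendsto_cc h.smooth.continuous a x hs0).const_sub (c x)).mul_const (η x ^ 2)).mul
          ((tendsto_dq h.smooth a x hs0 hspos).pow 2))).add
        ((hs0.pow 2).mul_const (G η η x + c x * η x ^ 2))
      simpa [hcdef] using this
  rw [← form_self h.smooth.continuous hP2 hPc]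
  refine le_of_tendsto_of_tendsto' (hlimJ.pow 2) (hlimR.mul_const _) fun n => ?_
  refine (form_cauchy h.smooth.continuous hst (hφ1 n) (hφc n) hP2 hPc).trans
    (mul_le_mul_of_nonneg_right (hQn n) ?_)
  rw [form_self h.smooth.continuous hP2 hPc]
  exact hst P (hP2.of_le (by norm_num)) hPc

end Vale.Agent.P134.Periodic
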