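/-
P134 (De Giorgi): along a lattice of translations, derivatives are weak solutions of the
linearised equation on average.
-/
import Vale.Agent.P134.Cutoff
import Vale.Agent.P134.Stat.Form

open MeasureTheory Filter Topology
open scoped InnerProductSpace

noncomputable section

namespace Vale.Agent.P134.Periodic

variable {d m r : ℕ}

/-- The lattice box. -/
def lat (m N : ℕ) : Finset (Fin m → ℤ) :=
  Fintype.piFinset fun _ => Finset.Icc (-(N : ℤ)) N

lemma mem_lat {N : ℕ} {k : Fin m → ℤ} : k ∈ lat m N ↔ ∀ i, |k i| ≤ N := by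
  simp [lat, Fintype.mem_piFinset, abs_le]

lemma card_lat (m N : ℕ) : ((lat m N).card : ℝ) = (2 * (N : ℝ) + 1) ^ m := by
  have : ((N : ℤ) + 1 + (N : ℤ)).toNat = 2 * N + 1 := by omega
  simp [lat, Int.card_Icc, this]

/-- Lattice translations. -/
def sh (τ : Fin m → Ed d) (k : Fin m → ℤ) : Ed d := ∑ i, (k i : ℝ) • τ i

/-- Coordinates adapted to translations. -/
def Adapted (L : Ed d ≃L[ℝ] (Ix m r → ℝ)) (τ : Fin m → Ed d) : Prop :=
  ∀ i, L.symm (Pi.single (Sum.inl i) 1) = τ i

lemma coord_sh {L : Ed d ≃L[ℝ] (Ix m r → ℝ)} {τ : Fin m → Ed d} (hτ : Adapted L τ)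
    (k : Fin m → ℤ) : L (sh τ k) = Sum.elim (fun i => (k i : ℝ)) fun _ => 0 := by
  simp only [sh, map_sum, map_smul, ← hτ _, L.apply_symm_apply]
  funext j
  rcases j with b | b
  · rw [Finset.sum_apply, Finset.sum_eq_single_of_mem b (Finset.mem_univ b)
      fun b' _ hb => by simp [hb.symm]]
    simp
  · simp [Finset.sum_apply]

/-- The tested linearised equation. -/
def Jt (u : Ed d → ℝ) (a : Ed d) (ψ : Ed d → ℝ) : ℝ :=
  ∫ x, |Dd u a x| * Lop (fun y => 3 * u y ^ 2 - 1) ψ x

lemma lap_const_mul {f : Ed d → ℝ} (hf : ContDiff ℝ 2 f) (c : ℝ) (x : Ed d) :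
    Laplacian.laplacian (fun y => c * f y) x = c * Laplacian.laplacian f x :=
  InnerProductSpace.laplacian_smul c hf.contDiffAt

lemma pd_sum_mul {ι : Type*} (s : Finset ι) (c : ι → ℝ) {f : ι → Ed d → ℝ}
    (hf : ∀ k ∈ s, ContDiff ℝ 1 (f k)) (i : Fin d) (x : Ed d) :
    pd (fun y => ∑ k ∈ s, c k * f k y) i x = ∑ k ∈ s, c k * pd (f k) i x := by
  have hdf : ∀ k ∈ s, DifferentiableAt ℝ (f k) x := fun k hk =>
    (hf k hk).differentiable one_ne_zero x
  unfold pd
  rw [fderiv_fun_sum fun k hk => (hdf k hk).const_mul (c k),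
    sum_apply]
  refine Finset.sum_congr rfl fun k hk => ?_
  rw [fderiv_const_mul (hdf k hk)]
  simp

variable {L : Ed d ≃L[ℝ] (Ix m r → ℝ)} {τ : Fin m → Ed d}

/-- Boundedly many translates of a compact set pass through a point. -/
lemma exists_overlap (hτ : Adapted L τ) {K : Set (Ed d)} (hK : IsCompact K) :
    ∃ Mo : ℕ, ∀ (s : Finset (Fin m → ℤ)) (x : Ed d),
      (∀ k ∈ s, x - sh τ k ∈ K) → s.card ≤ Mo := by
  obtain ⟨R, hR⟩ := (hK.image L.continuous).isBounded.exists_norm_le
  obtain ⟨D, hD⟩ := exists_nat_gt (2 * R)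
  refine ⟨(2 * D + 1) ^ m, fun s x hs => ?_⟩
  rcases s.eq_empty_or_nonempty with rfl | ⟨k0, hk0⟩
  · simp
  have hsub : s ⊆ Fintype.piFinset fun i => Finset.Icc (k0 i - D) (k0 i + D) := by
    intro k hk
    refine Fintype.mem_piFinset.2 fun i => ?_
    have hb : ∀ k' ∈ s, |L x (Sum.inl i) - (k' i : ℝ)| ≤ R := fun k' hk' => by
      have := (norm_le_pi_norm (L (x - sh τ k')) (Sum.inl i)).trans (hR _ ⟨_, hs k' hk', rfl⟩)
      simpa [map_sub, coord_sh hτ, Real.norm_eq_abs] using this
    have a1 := abs_le.1 (hb k hk)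
    have a2 := abs_le.1 (hb k0 hk0)
    have b1 : (k i : ℝ) ≤ (k0 i : ℝ) + D := by linarith
    have b2 : (k0 i : ℝ) ≤ (k i : ℝ) + D := by linarith
    rw [Finset.mem_Icc]
    constructor
    · have : k0 i ≤ k i + D := by exact_mod_cast b2
      omega
    · exact_mod_cast b1
  refine (Finset.card_le_card hsub).trans (le_of_eq ?_)
  have : ∀ i, (k0 i + D + 1 - (k0 i - D)).toNat = 2 * D + 1 := fun i => by omega
  simp [Int.card_Icc, this]

/-- The linearised equation holds for `|∂ₐu|` on average over the lattice. -/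
lemma average (hτ : Adapted L τ) {u : Ed d → ℝ} (h : Sol u) (hst : Stable u) (hgr : Growth L u)
    (a : Ed d) {ψ : Ed d → ℝ} (hψ : ContDiff ℝ 2 ψ) (hψc : HasCompactSupport ψ) {δ : ℝ}
    (hδ : 0 < δ) :
    ∀ᶠ N : ℕ in atTop,
      ∑ k ∈ lat m N, |Jt (fun y => u (y + sh τ k)) a ψ| ≤ δ * (2 * (N : ℝ) + 1) ^ m := by
  set c : Ed d → ℝ := fun y => 3 * u y ^ 2 - 1 with hcdef
  have hc : Continuous c := ((h.smooth.continuous.pow 2).const_mul 3).sub continuous_const
  have hψ1 : ContDiff ℝ 1 ψ := hψ.of_le (by norm_num)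
  obtain ⟨R0, hR0⟩ := (hψc.isCompact.image L.continuous).isBounded.exists_norm_le
  obtain ⟨Mo, hMo⟩ := exists_overlap hτ hψc.isCompact
  obtain ⟨Cc, hCc0, hCc⟩ := cutoff_energy L h.smooth hgr
  have hGψ := continuous_G hψ1 one_ne_zero hψ1 one_ne_zero
  set g : Ed d → ℝ := fun y => G ψ ψ y + 4 * ψ y ^ 2 with hgdef
  have hgc : Continuous g := hGψ.add ((hψ.continuous.pow 2).const_mul 4)
  have hg0 : ∀ y, 0 ≤ g y := fun y => by
    have := G_self_nonneg ψ y
    positivity
  have hgi : Integrable g := integrable_off hgc hψc fun y hy => by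
    simp only [hgdef, G_zero_off_left hy, image_eq_zero_of_notMem_tsupport hy]; ring
  set B : ℝ := ∫ y, g y with hBdef
  have hB0 : 0 ≤ B := integral_nonneg hg0
  set Q : ℝ := ‖a‖ ^ 2 * Cc * Mo * B with hQdef
  have hQ0 : 0 ≤ Q := by positivity
  obtain ⟨K, hK1, hKQ, hKR⟩ : ∃ K : ℕ, 1 ≤ K ∧ Q ≤ δ ^ 2 * K ∧ R0 ≤ 2 ^ K :=
    ((eventually_ge_atTop 1).and (((tendsto_natCast_atTop_atTop.const_mul_atTop
      (pow_pos hδ 2)).eventually_ge_atTop Q).and
      ((tendsto_pow_atTop_atTop_of_one_lt (one_lt_two : (1 : ℝ) < 2)).eventually_ge_atTop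
        R0))).exists
  filter_upwards [hCc K hK1, eventually_ge_atTop 1,
    tendsto_natCast_atTop_atTop.eventually_ge_atTop R0] with N hA hN1 hNR
  have hN' : (1 : ℝ) ≤ N := by exact_mod_cast hN1
  have hS : (0 : ℝ) < 2 * N := by linarith
  set η := eta L (2 * (N : ℝ)) K with hηdef
  have hη1 : ContDiff ℝ 1 η := contDiff_eta L _ K
  have hηc : HasCompactSupport η := hasCompactSupport_eta L hS hK1
  have hη : ∀ k ∈ lat m N, ∀ x, x - sh τ k ∈ tsupport ψ → η x = 1 := by
    intro k hk x hx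
    have hb : ∀ j, |L x j - L (sh τ k) j| ≤ R0 := fun j => by
      have := (norm_le_pi_norm (L (x - sh τ k)) j).trans (hR0 _ ⟨_, hx, rfl⟩)
      simpa [map_sub, Real.norm_eq_abs] using this
    refine eta_one L hS hK1 (fun i => ?_) fun i => ?_
    · have a1 := hb (Sum.inl i)
      have a2 : |(k i : ℝ)| ≤ N := by exact_mod_cast mem_lat.1 hk i
      simp only [coord_sh hτ, Sum.elim_inl] at a1
      calc |L x (Sum.inl i)| = |(L x (Sum.inl i) - k i) + k i| := by rw [sub_add_cancel]
        _ ≤ R0 + N := (abs_add_le _ _).trans (add_le_add a1 a2)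
        _ ≤ 2 * N := by linarith
    · have a1 := hb (Sum.inr i)
      simp only [coord_sh hτ, Sum.elim_inr, sub_zero] at a1
      exact a1.trans hKR
  set J : (Fin m → ℤ) → ℝ := fun k => Jt (fun y => u (y + sh τ k)) a ψ with hJdef
  set s : (Fin m → ℤ) → ℝ := fun k => if 0 ≤ J k then 1 else -1 with hsdef
  have hs : ∀ k, s k * J k = |J k| := fun k => by
    simp only [hsdef]; split_ifs with hk
    · rw [one_mul, abs_of_nonneg hk]
    · rw [abs_of_neg (not_le.1 hk)]; ring
  have hs2 : ∀ k, s k ^ 2 = 1 := fun k => by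
    simp only [hsdef]; split_ifs <;> norm_num
  set tr : (Fin m → ℤ) → Ed d → ℝ := fun k x => ψ (x - sh τ k) with htrdef
  have htr : ∀ k, ContDiff ℝ 2 (tr k) := fun k => hψ.comp (contDiff_id.sub contDiff_const)
  set P : Ed d → ℝ := fun x => ∑ k ∈ lat m N, s k * tr k x with hPdef
  have hP2 : ContDiff ℝ 2 P := ContDiff.sum fun k _ => contDiff_const.mul (htr k)
  have hPc : HasCompactSupport P := by
    refine HasCompactSupport.intro
      ((lat m N).finite_toSet.isCompact_biUnion fun k _ =>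
        hψc.isCompact.image (continuous_id.add (continuous_const (y := sh τ k)))) fun x hx => ?_
    refine Finset.sum_eq_zero fun k hk => ?_
    rw [mul_eq_zero]
    exact Or.inr (image_eq_zero_of_notMem_tsupport (f := ψ) fun hc' =>
      hx (Set.mem_biUnion (Finset.mem_coe.2 hk) ⟨x - sh τ k, hc', by simp⟩))
  set Dl : (Fin m → ℤ) → Ed d → ℝ :=
    fun k y => Lop (fun z => 3 * u (z + sh τ k) ^ 2 - 1) ψ y with hDldef
  have hLtr : ∀ k x, Lop c (tr k) x = Dl k (x - sh τ k) := by
    intro k x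
    simp only [hDldef, Lop, htrdef, hcdef, sub_add_cancel]
    simp only [sub_eq_add_neg]
    rw [lap_translate]
  have hLP : ∀ x, Lop c P x = ∑ k ∈ lat m N, s k * Dl k (x - sh τ k) := by
    intro x
    simp only [← hLtr, Lop, hPdef]
    rw [lap_sum _ fun k _ => contDiff_const.mul (htr k), ← Finset.sum_neg_distrib, Finset.mul_sum,
      ← Finset.sum_add_distrib]
    refine Finset.sum_congr rfl fun k _ => ?_
    rw [lap_const_mul (htr k)]; ring
  have hDl0 : ∀ k y, y ∉ tsupport ψ → Dl k y = 0 := fun k y hy => Lop_zero_off hψ hy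
  have hDlc : ∀ k, Continuous (Dl k) := fun k => continuous_Lop
    ((((h.translate (sh τ k)).smooth.continuous).pow 2).const_mul 3 |>.sub continuous_const) hψ
  have hDc := (continuous_Dd h.smooth a).abs
  have hpair : ∫ x, η x * |Dd u a x| * Lop c P x = ∑ k ∈ lat m N, |J k| := by
    have hi : ∀ k, Integrable fun x => η x * |Dd u a x| * (s k * Dl k (x - sh τ k)) := fun k =>
      integrable_off ((hη1.continuous.mul hDc).mul
        (continuous_const.mul ((hDlc k).comp (continuous_id.sub continuous_const)))) hηc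
        fun x hx => by
          show η x * _ * _ = 0
          rw [image_eq_zero_of_notMem_tsupport hx]; ring
    simp only [hLP, Finset.mul_sum]
    rw [integral_finsetSum _ fun k _ => hi k]
    refine Finset.sum_congr rfl fun k hk => ?_
    rw [← hs, ← integral_add_right_eq_self (fun x => η x * |Dd u a x| * (s k * Dl k (x - sh τ k)))
      (sh τ k)]
    simp only [hJdef, Jt, ← integral_const_mul]
    refine integral_congr_ae (Eventually.of_forall fun y => ?_)
    simp only [add_sub_cancel_right, Dd_translate, hDldef]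
    by_cases hy : y ∈ tsupport ψ
    · rw [hη k hk (y + sh τ k) (by simpa using hy)]; ring
    · rw [Lop_zero_off hψ hy]; ring
  have hform := form_test h hst a hη1 hηc hP2 hPc
  rw [hpair] at hform
  have hGη := continuous_G hη1 one_ne_zero hη1 one_ne_zero
  have hGu := continuous_G h.smooth (by norm_num) h.smooth (by norm_num)
  have hA' : ∫ x, Dd u a x ^ 2 * G η η x ≤ ‖a‖ ^ 2 * (Cc * (N : ℝ) ^ m / K) := by
    refine le_trans ?_ (mul_le_mul_of_nonneg_left hA (sq_nonneg ‖a‖))
    rw [← integral_const_mul]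
    refine integral_mono ?_ ?_ fun x => ?_
    · exact integrable_off (((continuous_Dd h.smooth a).pow 2).mul hGη) hηc fun x hx => by
        show _ * G η η x = 0
        rw [G_zero_off_left hx]; ring
    · exact (integrable_off (hGu.mul hGη) hηc fun x hx => by
          show G u u x * G η η x = 0
          rw [G_zero_off_left hx]; ring).const_mul _
    · calc Dd u a x ^ 2 * G η η x ≤ ‖a‖ ^ 2 * G u u x * G η η x :=
            mul_le_mul_of_nonneg_right (sq_Dd_le u a x) (G_self_nonneg η x)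
        _ = _ := by ring
  have hP1 : ContDiff ℝ 1 P := hP2.of_le (by norm_num)
  have hQP : ∫ x, (G P P x + c x * P x ^ 2) ≤ Mo * (2 * (N : ℝ) + 1) ^ m * B := by
    have hgt : ∀ k, Integrable fun x => g (x - sh τ k) := fun k => hgi.comp_sub_right _
    have hR : ∫ x, (Mo : ℝ) * ∑ k ∈ lat m N, g (x - sh τ k)
        = Mo * (2 * (N : ℝ) + 1) ^ m * B := by
      rw [integral_const_mul, integral_finsetSum _ fun k _ => hgt k]
      simp only [integral_sub_right_eq_self g, ← hBdef, Finset.sum_const, nsmul_eq_mul, card_lat]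
      ring
    rw [← hR]
    refine integral_mono (integrable_off ((continuous_G hP1 one_ne_zero hP1 one_ne_zero).add
        (hc.mul (hP2.continuous.pow 2))) hPc fun x hx => by
          show G P P x + c x * P x ^ 2 = 0
          rw [G_zero_off_left hx, image_eq_zero_of_notMem_tsupport hx]; ring)
      ((integrable_finsetSum _ fun k _ => hgt k).const_mul _) fun x => ?_
    classical
    set Sx := (lat m N).filter fun k => x - sh τ k ∈ tsupport ψ with hSx
    have hcard : (Sx.card : ℝ) ≤ Mo := by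
      exact_mod_cast hMo Sx x fun k hk => (Finset.mem_filter.1 hk).2
    have key : ∀ f : (Fin m → ℤ) → ℝ, (∀ k, x - sh τ k ∉ tsupport ψ → f k = 0) →
        (∑ k ∈ lat m N, s k * f k) ^ 2 ≤ Mo * ∑ k ∈ lat m N, f k ^ 2 := by
      intro f hf
      rw [← Finset.sum_subset (Finset.filter_subset _ _ : Sx ⊆ lat m N) fun k hk hk' => by
        rw [hf k fun hmem => hk' (Finset.mem_filter.2 ⟨hk, hmem⟩), mul_zero]]
      refine (sq_sum_le_card_mul_sum_sq).trans ?_
      simp only [mul_pow, hs2, one_mul]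
      refine mul_le_mul hcard (Finset.sum_le_sum_of_subset_of_nonneg (Finset.filter_subset _ _)
        fun _ _ _ => sq_nonneg _) (Finset.sum_nonneg fun _ _ => sq_nonneg _) (Nat.cast_nonneg _)
    have hpd : ∀ i, pd P i x = ∑ k ∈ lat m N, s k * pd ψ i (x - sh τ k) := fun i => by
      rw [hPdef, pd_sum_mul _ s (fun k _ => (htr k).of_le (by norm_num))]
      refine Finset.sum_congr rfl fun k _ => ?_
      simp only [htrdef, sub_eq_add_neg, pd_translate]
    have h1 : G P P x ≤ Mo * ∑ k ∈ lat m N, G ψ ψ (x - sh τ k) := by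
      simp only [G, hpd, ← sq]
      rw [Finset.sum_comm, Finset.mul_sum]
      exact Finset.sum_le_sum fun i _ => key _ fun k hk => pd_zero_off hk i
    have h2 : P x ^ 2 ≤ Mo * ∑ k ∈ lat m N, ψ (x - sh τ k) ^ 2 :=
      key _ fun k hk => image_eq_zero_of_notMem_tsupport (f := ψ) hk
    have h3 : c x ≤ 4 := by
      obtain ⟨b1, b2⟩ := abs_le.1 (h.bdd x)
      simp only [hcdef]; nlinarith
    calc G P P x + c x * P x ^ 2 ≤ G P P x + 4 * P x ^ 2 := by
          linarith [mul_le_mul_of_nonneg_right h3 (sq_nonneg (P x))]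
      _ ≤ _ := by
          simp only [hgdef, Finset.sum_add_distrib, ← Finset.mul_sum]
          linarith
  have hA0 : 0 ≤ ∫ x, Dd u a x ^ 2 * G η η x :=
    integral_nonneg fun x => mul_nonneg (sq_nonneg _) (G_self_nonneg η x)
  have hbound : (∑ k ∈ lat m N, |J k|) ^ 2 ≤ (δ * (2 * (N : ℝ) + 1) ^ m) ^ 2 := by
    refine hform.trans ((mul_le_mul_of_nonneg_left hQP hA0).trans
      ((mul_le_mul_of_nonneg_right hA' (by positivity)).trans ?_))
    have hKpos : (0 : ℝ) < K := by exact_mod_cast hK1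
    have hpow : (N : ℝ) ^ m ≤ (2 * (N : ℝ) + 1) ^ m :=
      pow_le_pow_left₀ (by linarith) (by linarith) m
    calc ‖a‖ ^ 2 * (Cc * (N : ℝ) ^ m / K) * (Mo * (2 * (N : ℝ) + 1) ^ m * B)
        = Q * ((N : ℝ) ^ m * (2 * (N : ℝ) + 1) ^ m) / K := by rw [hQdef]; ring
      _ ≤ δ ^ 2 * K * ((2 * (N : ℝ) + 1) ^ m * (2 * (N : ℝ) + 1) ^ m) / K :=
          div_le_div_of_nonneg_right (mul_le_mul hKQ (mul_le_mul_of_nonneg_right hpow
            (by positivity)) (by positivity) (by positivity)) hKpos.le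
      _ = _ := by field_simp
  exact (pow_le_pow_iff_left₀ (Finset.sum_nonneg fun k _ => abs_nonneg _) (by positivity)
    two_ne_zero).1 hbound

end Vale.Agent.P134.Periodic
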