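/-
P134 (De Giorgi): compactness of bounded solutions, with convergence of the gradients.
-/
import Vale.Agent.P134.Limit.Stable

open MeasureTheory Filter Topology
open scoped InnerProductSpace

noncomputable section

namespace Vale.Agent.P134.Periodic

variable {d : ℕ}

/-- Directional derivatives of solutions are uniformly Lipschitz at unit scale. -/
lemma exists_Dd_lip (d : ℕ) : ∃ C, 0 ≤ C ∧ ∀ u : Ed d → ℝ, Sol u → ∀ a x y : Ed d,
    ‖x - y‖ ≤ 1 → |Dd u a x - Dd u a y| ≤ C * ‖a‖ * ‖x - y‖ := by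
  obtain ⟨C, hC0, hC⟩ := Vale.Agent.P100.Weighted.lipschitz_of_bounds d
  obtain ⟨M, hM0, hM⟩ := exists_grad_bound d
  refine ⟨C * (5 * M), by positivity, fun u h a x y hxy => ?_⟩
  set s : ℕ → ℝ := fun n => 1 / ((n : ℝ) + 1) with hsdef
  have hspos : ∀ n, 0 < s n := fun n => by positivity
  have hs0 : Tendsto s atTop (𝓝 0) := tendsto_one_div_add_atTop_nhds_zero_nat
  refine le_of_tendsto' (((tendsto_dq h.smooth a x hs0 hspos).sub
    (tendsto_dq h.smooth a y hs0 hspos)).abs) fun n => ?_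
  have hb : ∀ z, |dq u a (s n) z| ≤ M * ‖a‖ := fun z => abs_dq_le h.smooth (hM u h) a (hspos n) z
  have := hC (dq u a (s n)) y (M * ‖a‖) (4 * (M * ‖a‖)) (contDiff_dq h.smooth a (s n))
    (fun z _ => hb z)
    (fun z _ => by
      rw [lap_dq h.smooth h.eqn, abs_mul]
      exact mul_le_mul (abs_cc_le h.bdd a (s n) z) (hb z) (abs_nonneg _) (by norm_num))
    x (by rw [Metric.mem_closedBall, dist_eq_norm]; exact hxy) y
    (Metric.mem_closedBall_self zero_le_one)
  refine this.trans (le_of_eq ?_)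
  rw [dist_eq_norm]; ring

/-- Pointwise limits of solutions are solutions. -/
lemma sol_of_limit {F : ℕ → Ed d → ℝ} (hs : ∀ k, Sol (F k)) {v : Ed d → ℝ}
    (hv : ∀ x, Tendsto (fun k => F k x) atTop (𝓝 (v x))) : Sol v := by
  have hb : ∀ x, |v x| ≤ 1 := fun x => le_of_tendsto' (hv x).abs fun k => (hs k).bdd x
  obtain ⟨M, hM0, hM⟩ := exists_grad_bound d
  have hc : Continuous v := by
    refine LipschitzWith.continuous (K := M.toNNReal) (LipschitzWith.of_dist_le_mul fun x y => ?_)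
    rw [Real.coe_toNNReal _ hM0, Real.dist_eq, dist_eq_norm]
    exact le_of_tendsto' ((hv x).sub (hv y)).abs fun k =>
      abs_sub_le_of_grad ((hs k).smooth.differentiable (by norm_num)) (hM _ (hs k)) x y
  have hF : ∀ k, ContDiff ℝ 2 fun x => 1 + F k x := fun k => contDiff_const.add (hs k).smooth
  have hlap : ∀ {f : Ed d → ℝ}, ContDiff ℝ 2 f → ∀ x,
      Laplacian.laplacian (fun y => 1 + f y) x = Laplacian.laplacian f x := by
    intro f hf x
    rw [lap_eq (contDiff_const.add hf), lap_eq hf]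
    simp [pd]
  have hev : Vale.Agent.P100.Weighted.EvBounded (fun k x => 1 + F k x) 2 2 := fun R =>
    Eventually.of_forall fun k z _ => by
      obtain ⟨h1, h2⟩ := abs_le.1 ((hs k).bdd z)
      refine ⟨by linarith, by linarith, ?_⟩
      show |Laplacian.laplacian (fun x => 1 + F k x) z| ≤ 2
      rw [hlap (hs k).smooth]
      exact (hs k).abs_lap_le z
  set fl : Ed d → ℝ := fun x => -(v x ^ 3 - v x) with hfldef
  have hfl : ∀ x, Tendsto (fun k => -Laplacian.laplacian (fun y => 1 + F k y) x) atTop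
      (𝓝 (fl x)) := by
    intro x
    refine (((hv x).pow 3).sub (hv x)).neg.congr fun k => ?_
    rw [hlap (hs k).smooth, (hs k).eqn x]
  have hid : ∀ x R, 0 < R →
      Vale.Agent.P100.avg (fun y => 1 + v y) x R + Vale.Agent.P100.Weighted.potT R fl x
        = (1 + v x) * ∫ y : Ed d, Vale.Agent.P100.avgW y := fun x R hR =>
    Vale.Agent.P100.Weighted.identity_of_limit (F := fun k x => 1 + F k x) hF hev
      strictMono_id (fun y => (hv y).const_add 1) hfl x hR
  have hc' : Continuous fun y => 1 + v y := continuous_const.add hc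
  have hfc : Continuous fl := ((hc.pow 3).sub hc).neg
  have h1 := Vale.Agent.P100.Weighted.contDiff_one_of_identity hid hc' hfc
  have hp1 : ContDiff ℝ 1 v := by simpa using h1.sub (contDiff_const (c := (1 : ℝ)))
  have h2 := Vale.Agent.P100.Weighted.contDiff_two_of_identity hid hc'
    (((hp1.pow 3).sub hp1).neg)
  have hp2 : ContDiff ℝ 2 v := by simpa using h2.sub (contDiff_const (c := (1 : ℝ)))
  refine ⟨hp2, hb, fun x => ?_⟩
  rw [← hlap hp2, Vale.Agent.P100.Weighted.laplacian_of_identity hid h2 hfc]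
  simp [hfldef]

/-- Pointwise limits of stable solutions are stable. -/
lemma stable_of_limit {F : ℕ → Ed d → ℝ} (hs : ∀ k, Sol (F k)) (hst : ∀ k, Stable (F k))
    {v : Ed d → ℝ} (hv : ∀ x, Tendsto (fun k => F k x) atTop (𝓝 (v x))) : Stable v := by
  intro φ hφ hφc
  have hGc := continuous_G hφ (by norm_num) hφ (by norm_num)
  have hsc : ∀ k, Continuous (F k) := fun k => (hs k).smooth.continuous
  obtain ⟨P, hP⟩ := hφc.isCompact.exists_bound_of_continuousOn
    (show Continuous fun x => G φ φ x + 4 * φ x ^ 2 from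
      hGc.add ((hφ.continuous.pow 2).const_mul 4)).continuousOn
  refine ge_of_tendsto' (lim_integral hφc.isCompact (C := P)
    (g := fun k x => G φ φ x + (3 * F k x ^ 2 - 1) * φ x ^ 2)
    (fun k => hGc.add ((((hsc k).pow 2).const_mul 3).sub continuous_const |>.mul
      (hφ.continuous.pow 2)))
    (fun n x hx => by
      rw [G_zero_off_left hx, image_eq_zero_of_notMem_tsupport hx]; ring)
    (fun k x hx => ?_) fun x => ?_) fun k => hst k φ hφ hφc
  · refine le_trans ?_ (le_trans (le_abs_self _) (by simpa [Real.norm_eq_abs] using hP x hx))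
    refine (abs_add_le _ _).trans (add_le_add (abs_of_nonneg (G_self_nonneg φ x)).le ?_)
    rw [abs_mul, abs_of_nonneg (sq_nonneg (φ x))]
    refine mul_le_mul_of_nonneg_right ?_ (sq_nonneg _)
    obtain ⟨a, b⟩ := abs_le.1 ((hs k).bdd x)
    rw [abs_le]; constructor <;> nlinarith
  · exact tendsto_const_nhds.add (((((hv x).pow 2).const_mul 3).sub_const 1).mul_const _)

/-- Translates of stable functions are stable. -/
lemma Stable.translate {u : Ed d → ℝ} (hst : Stable u) (T : Ed d) :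
    Stable fun y => u (y + T) := by
  intro φ hφ hφc
  refine (hst (fun x => φ (x + -T)) (hφ.comp (contDiff_id.add contDiff_const))
    (hφc.comp_homeomorph (Homeomorph.addRight (-T)))).trans (le_of_eq ?_)
  rw [← integral_add_right_eq_self (fun x => G (fun y => φ (y + -T)) (fun y => φ (y + -T)) x
    + (3 * u x ^ 2 - 1) * φ (x + -T) ^ 2) T]
  refine integral_congr_ae (Eventually.of_forall fun x => ?_)
  simp only [G, pd_translate, add_neg_cancel_right]

/-- Derivatives converge along pointwise convergent sequences of solutions. -/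
lemma tendsto_Dd {F : ℕ → Ed d → ℝ} (hs : ∀ k, Sol (F k)) {v : Ed d → ℝ}
    (hv : ∀ x, Tendsto (fun k => F k x) atTop (𝓝 (v x))) (a x : Ed d) :
    Tendsto (fun k => Dd (F k) a x) atTop (𝓝 (Dd v a x)) := by
  obtain ⟨C, hC0, hC⟩ := exists_Dd_lip d
  have hvs := sol_of_limit hs hv
  rw [Metric.tendsto_atTop]
  intro ε hε
  set s : ℝ := min (1 / (‖a‖ + 1)) (ε / (3 * (C * ‖a‖ * ‖a‖ + 1))) with hsdef
  have hs0 : 0 < s := lt_min (by positivity) (by positivity)
  have hs1 : s * ‖a‖ ≤ 1 := by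
    calc s * ‖a‖ ≤ 1 / (‖a‖ + 1) * ‖a‖ :=
          mul_le_mul_of_nonneg_right (min_le_left _ _) (norm_nonneg a)
      _ ≤ 1 := by rw [div_mul_eq_mul_div, div_le_one (by positivity)]; linarith
  have hs2 : C * ‖a‖ * ‖a‖ * s < ε / 3 := by
    calc C * ‖a‖ * ‖a‖ * s
        ≤ C * ‖a‖ * ‖a‖ * (ε / (3 * (C * ‖a‖ * ‖a‖ + 1))) :=
          mul_le_mul_of_nonneg_left (min_le_right _ _) (by positivity)
      _ < (C * ‖a‖ * ‖a‖ + 1) * (ε / (3 * (C * ‖a‖ * ‖a‖ + 1))) :=
          mul_lt_mul_of_pos_right (lt_add_one _) (by positivity)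
      _ = ε / 3 := by
          have : C * ‖a‖ * ‖a‖ + 1 ≠ 0 := ne_of_gt (by positivity)
          field_simp
  have hclose : ∀ {w : Ed d → ℝ}, Sol w → |dq w a s x - Dd w a x| < ε / 3 := by
    intro w hw
    obtain ⟨t, ht, he⟩ := dq_slope hw.smooth a hs0 x
    have hn : ‖x + t • a - x‖ = t * ‖a‖ := by
      rw [add_sub_cancel_left, norm_smul, Real.norm_eq_abs, abs_of_pos ht.1]
    have hta : t * ‖a‖ ≤ s * ‖a‖ := mul_le_mul_of_nonneg_right ht.2.le (norm_nonneg a)
    rw [he]
    refine lt_of_le_of_lt ((hC w hw a _ x (by rw [hn]; linarith)).trans ?_) hs2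
    rw [hn]
    calc C * ‖a‖ * (t * ‖a‖) ≤ C * ‖a‖ * (s * ‖a‖) :=
          mul_le_mul_of_nonneg_left hta (by positivity)
      _ = _ := by ring
  have hd : Tendsto (fun k => dq (F k) a s x) atTop (𝓝 (dq v a s x)) :=
    ((hv _).sub (hv x)).div_const s
  obtain ⟨N, hN⟩ := Metric.tendsto_atTop.1 hd (ε / 3) (by linarith)
  refine ⟨N, fun k hk => ?_⟩
  have h1 := abs_lt.1 (hclose (hs k))
  have h2 := abs_lt.1 (hclose hvs)
  have h3 := hN k hk
  rw [Real.dist_eq] at h3 ⊢
  have h3' := abs_lt.1 h3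
  rw [abs_lt]; constructor <;> linarith

/-- Every sequence of solutions has a subsequence converging everywhere to a solution. -/
lemma exists_subseq {F : ℕ → Ed d → ℝ} (hs : ∀ k, Sol (F k)) :
    ∃ φ : ℕ → ℕ, StrictMono φ ∧ ∃ v : Ed d → ℝ, Sol v ∧
      ∀ x, Tendsto (fun j => F (φ j) x) atTop (𝓝 (v x)) := by
  obtain ⟨g, -, φ, hφ, hlim⟩ :=
    (isCompact_univ_pi fun _ : ℕ => isCompact_Icc (a := (0 : ℝ)) (b := 2)).tendsto_subseq
      (x := fun k i => 1 + F k (TopologicalSpace.denseSeq (Ed d) i))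
      (fun k i _ => by
        obtain ⟨h1, h2⟩ := abs_le.1 ((hs k).bdd (TopologicalSpace.denseSeq (Ed d) i))
        exact ⟨by linarith, by linarith⟩)
  have hev : Vale.Agent.P100.Weighted.EvBounded (fun k x => 1 + F k x) 2 2 := fun R =>
    Eventually.of_forall fun k z _ => by
      obtain ⟨h1, h2⟩ := abs_le.1 ((hs k).bdd z)
      refine ⟨by linarith, by linarith, ?_⟩
      show |Laplacian.laplacian (fun x => 1 + F k x) z| ≤ 2
      rw [show Laplacian.laplacian (fun x => 1 + F k x) z = Laplacian.laplacian (F k) z by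
        rw [lap_eq (contDiff_const.add (hs k).smooth), lap_eq (hs k).smooth]; simp [pd]]
      exact (hs k).abs_lap_le z
  have hg : ∀ i, Tendsto (fun j => min (max ((fun k x => 1 + F k x) (φ j)
      (TopologicalSpace.denseSeq (Ed d) i)) 0) 2) atTop (𝓝 (g i)) := fun i => by
    refine (tendsto_pi_nhds.1 hlim i).congr fun j => ?_
    obtain ⟨h1, h2⟩ := abs_le.1 ((hs (φ j)).bdd (TopologicalSpace.denseSeq (Ed d) i))
    simp only [Function.comp_apply]
    rw [max_eq_left (by linarith), min_eq_left (by linarith)]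
  obtain ⟨Fl, -, -, hFl⟩ := Vale.Agent.P100.Weighted.exists_limit
    (fun k => contDiff_const.add (hs k).smooth) hev hφ hg
  have hv : ∀ x, Tendsto (fun j => F (φ j) x) atTop (𝓝 (Fl x - 1)) := fun x =>
    ((hFl x).sub_const 1).congr fun j => by ring
  exact ⟨φ, hφ, fun x => Fl x - 1, sol_of_limit (fun j => hs (φ j)) hv, hv⟩

/-- Pointwise convergence of solutions is uniform on balls. -/
lemma eventually_close {F : ℕ → Ed d → ℝ} (hs : ∀ k, Sol (F k)) {v : Ed d → ℝ}
    (hv : ∀ x, Tendsto (fun k => F k x) atTop (𝓝 (v x))) (R : ℝ) {ε : ℝ} (hε : 0 < ε) :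
    ∀ᶠ k in atTop, ∀ x, ‖x‖ ≤ R → |F k x - v x| ≤ ε := by
  obtain ⟨M, hM0, hM⟩ := exists_grad_bound d
  have hvs := sol_of_limit hs hv
  set δ : ℝ := ε / (3 * (M + 1)) with hδdef
  have hδ : 0 < δ := by positivity
  obtain ⟨t, -, htfin, htcov⟩ :=
    (isCompact_closedBall (0 : Ed d) R).finite_cover_balls hδ
  have hev : ∀ᶠ k in atTop, ∀ p ∈ t, |F k p - v p| ≤ ε / 3 :=
    (htfin.eventually_all).2 fun p _ => by
      filter_upwards [(hv p).eventually (Metric.closedBall_mem_nhds (v p) (by linarith :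
        0 < ε / 3))] with k hk
      simpa [Real.dist_eq] using hk
  filter_upwards [hev] with k hk x hx
  obtain ⟨p, hp, hxp⟩ := Set.mem_iUnion₂.1 (htcov (by simpa using hx : x ∈ Metric.closedBall 0 R))
  rw [Metric.mem_ball, dist_eq_norm] at hxp
  have hl : ∀ {w : Ed d → ℝ}, Sol w → |w x - w p| ≤ ε / 3 := fun {w} hw => by
    refine (abs_sub_le_of_grad (hw.smooth.differentiable (by norm_num)) (hM w hw) x p).trans ?_
    calc M * ‖x - p‖ ≤ (M + 1) * δ := mul_le_mul (by linarith) hxp.le (norm_nonneg _) (by linarith)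
      _ = ε / 3 := by rw [hδdef]; field_simp
  obtain ⟨a1, a2⟩ := abs_le.1 (hl (hs k))
  obtain ⟨b1, b2⟩ := abs_le.1 (hl hvs)
  obtain ⟨c1, c2⟩ := abs_le.1 (hk p hp)
  rw [abs_le]; constructor <;> linarith

end Vale.Agent.P134.Periodic
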