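/-
P134 (De Giorgi): from positive density a translate converging to a solution whose derivatives
have constant sign.
-/
import Vale.Agent.P134.Limit.ZeroSet
import Vale.Agent.P134.Stat.Average
import Vale.Agent.P134.Stat.Compact

open MeasureTheory Filter Topology Metric
open scoped InnerProductSpace
open Vale.Agent.P100

noncomputable section

namespace Vale.Agent.P134.Periodic

variable {d m r : ℕ}

/-- The lattice points of the box lying in a set. -/
def cnt (m N : ℕ) (s : Set (Fin m → ℤ)) : ℕ := Set.ncard {k | (∀ i, |k i| ≤ (N : ℤ)) ∧ k ∈ s}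

open Classical in
lemma cnt_eq (m N : ℕ) (s : Set (Fin m → ℤ)) :
    cnt m N s = ((lat m N).filter fun k => k ∈ s).card := by
  rw [cnt, ← Set.ncard_coe_finset]
  congr 1
  ext k
  simp [mem_lat]

lemma cnt_le (m N : ℕ) (s : Set (Fin m → ℤ)) : (cnt m N s : ℝ) ≤ (2 * (N : ℝ) + 1) ^ m := by
  classical
  rw [cnt_eq, ← card_lat]
  exact_mod_cast Finset.card_filter_le _ _

/-- The `i`-th test triple. -/
def tp (d i : ℕ) : Ed d × Ed d × ℝ := TopologicalSpace.denseSeq (Ed d × Ed d × ℝ) i

lemma exists_bound_avgPot (d : ℕ) :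
    ∃ B, 0 ≤ B ∧ ∀ y : Ed d, |avgPot y| ≤ B ∧ |Laplacian.laplacian avgPot y| ≤ B := by
  have hs : HasCompactSupport (avgPot : Ed d → ℝ) :=
    HasCompactSupport.intro (isCompact_closedBall 0 1) fun y hy => avgPot_eq_zero (by
      rw [mem_closedBall, dist_zero_right, not_le] at hy; exact hy.le)
  have hl : HasCompactSupport fun y : Ed d => Laplacian.laplacian avgPot y :=
    HasCompactSupport.intro hs fun y hy => lap_zero_off contDiff_two_avgPot hy
  obtain ⟨B1, h1⟩ := hs.exists_bound_of_continuous contDiff_two_avgPot.continuous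
  obtain ⟨B2, h2⟩ := hl.exists_bound_of_continuous (continuous_lap contDiff_two_avgPot)
  exact ⟨max (max B1 B2) 0, le_max_right _ _, fun y =>
    ⟨(by simpa [Real.norm_eq_abs] using h1 y : |avgPot y| ≤ B1).trans
        ((le_max_left _ _).trans (le_max_left _ _)),
      (by simpa [Real.norm_eq_abs] using h2 y : |Laplacian.laplacian avgPot y| ≤ B2).trans
        ((le_max_right _ _).trans (le_max_left _ _))⟩⟩

/-- Testing along a dense family of triples is enough. -/
lemma Jt_eq_zero_of_dense {v : Ed d → ℝ} (h : Sol v)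
    (hz : ∀ i, 0 < (tp d i).2.2 → Jt v (tp d i).1 (tst (tp d i).2.1 (tp d i).2.2) = 0)
    (a x₀ : Ed d) {R : ℝ} (hR : 0 < R) : Jt v a (tst x₀ R) = 0 := by
  have hd := TopologicalSpace.denseRange_denseSeq (Ed d × Ed d × ℝ)
  have hex : ∀ n : ℕ, ∃ i, dist (tp d i) (a, x₀, R) < min (R / 2) (1 / ((n : ℝ) + 1)) := fun n => by
    obtain ⟨i, hi⟩ := hd.exists_dist_lt (a, x₀, R) (lt_min (half_pos hR) (by positivity :
      (0 : ℝ) < 1 / ((n : ℝ) + 1)))
    exact ⟨i, by rwa [dist_comm]⟩
  choose ix hix using hex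
  have hlim : Tendsto (fun n => tp d (ix n)) atTop (𝓝 (a, x₀, R)) :=
    tendsto_iff_dist_tendsto_zero.2 (squeeze_zero (fun _ => dist_nonneg)
      (fun n => (hix n).le.trans (min_le_right _ _)) tendsto_one_div_add_atTop_nhds_zero_nat)
  have hb : ∀ n, ‖(tp d (ix n)).1 - a‖ ≤ R / 2 ∧ ‖(tp d (ix n)).2.1 - x₀‖ ≤ R / 2 ∧
      R / 2 ≤ (tp d (ix n)).2.2 ∧ (tp d (ix n)).2.2 ≤ 3 * R / 2 := by
    intro n
    have h0 := (hix n).le.trans (min_le_left _ _)
    simp only [Prod.dist_eq, max_le_iff, Real.dist_eq] at h0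
    obtain ⟨h1, h2, h3⟩ := h0
    rw [dist_eq_norm] at h1 h2
    obtain ⟨h4, h5⟩ := abs_le.1 h3
    exact ⟨h1, h2, by linarith, by linarith⟩
  have hpos : ∀ n, 0 < (tp d (ix n)).2.2 := fun n => by linarith [(hb n).2.2.1]
  have la := (continuous_fst.tendsto _).comp hlim
  have lx := ((continuous_fst.comp continuous_snd).tendsto _).comp hlim
  have lR := ((continuous_snd.comp continuous_snd).tendsto _).comp hlim
  simp only [Function.comp_def] at la lx lR
  set c : Ed d → ℝ := fun y => 3 * v y ^ 2 - 1 with hcdef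
  have hc : Continuous c := ((h.smooth.continuous.pow 2).const_mul 3).sub continuous_const
  obtain ⟨M, hM0, hM⟩ := exists_grad_bound d
  obtain ⟨B, hB0, hB⟩ := exists_bound_avgPot d
  have key : Tendsto (fun n => Jt v (tp d (ix n)).1 (tst (tp d (ix n)).2.1 (tp d (ix n)).2.2))
      atTop (𝓝 (Jt v a (tst x₀ R))) := by
    refine lim_integral (isCompact_closedBall x₀ (2 * R))
      (C := M * (‖a‖ + R / 2) * ((R / 2)⁻¹ ^ 2 * B + 4 * B))
      (fun n => (continuous_Dd h.smooth _).abs.mul (continuous_Lop hc (contDiff_tst _ _)))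
      (fun n z hz' => ?_) (fun n z _ => ?_) fun z => ?_
    · rw [Lop_zero_off (contDiff_tst _ _) fun hmem => hz' ?_, mul_zero]
      have hsub : tsupport (tst (tp d (ix n)).2.1 (tp d (ix n)).2.2)
          ⊆ closedBall (tp d (ix n)).2.1 (tp d (ix n)).2.2 :=
        closure_minimal (fun y hy => by
          by_contra hc'
          exact hy (tst_zero_off (hpos n) hc')) isClosed_closedBall
      have hm := hsub hmem
      rw [mem_closedBall, dist_eq_norm] at hm ⊢
      have := norm_sub_le_norm_sub_add_norm_sub z (tp d (ix n)).2.1 x₀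
      linarith [(hb n).2.1, (hb n).2.2.2]
    · rw [abs_mul, abs_abs]
      refine mul_le_mul ?_ ?_ (abs_nonneg _) (by positivity)
      · refine (abs_Dd_le (hM v h) _ z).trans (mul_le_mul_of_nonneg_left ?_ hM0)
        calc ‖(tp d (ix n)).1‖ ≤ ‖a‖ + ‖(tp d (ix n)).1 - a‖ := norm_le_norm_add_norm_sub' _ _
          _ ≤ _ := by linarith [(hb n).1]
      · refine (abs_add_le _ _).trans (add_le_add ?_ ?_)
        · rw [abs_neg, lap_tst, abs_mul, abs_of_nonneg (sq_nonneg _)]
          refine mul_le_mul ?_ (hB _).2 (abs_nonneg _) (by positivity)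
          exact pow_le_pow_left₀ (inv_nonneg.2 (hpos n).le)
            (inv_anti₀ (half_pos hR) (hb n).2.2.1) 2
        · rw [abs_mul, tst_eq]
          refine mul_le_mul ?_ (hB _).1 (abs_nonneg _) (by norm_num)
          obtain ⟨c1, c2⟩ := abs_le.1 (h.bdd z)
          rw [abs_le]; constructor <;> simp only [hcdef] <;> nlinarith
    · have ly := (lR.inv₀ hR.ne').smul (tendsto_const_nhds (x := z).sub lx)
      simp only [Lop, lap_tst, tst_eq]
      refine (((fderiv ℝ v z).continuous.tendsto a).comp la).abs.mul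
        (((((lR.inv₀ hR.ne').pow 2).mul
          (((continuous_lap contDiff_two_avgPot).tendsto _).comp ly)).neg).add
          (((contDiff_two_avgPot.continuous.tendsto _).comp ly).const_mul (c z)))
  refine tendsto_nhds_unique key ((tendsto_const_nhds (x := (0 : ℝ))).congr fun n => ?_)
  exact (hz (ix n) (hpos n)).symm

/-- Convergence of the tested equations. -/
lemma tendsto_Jt {F : ℕ → Ed d → ℝ} (hs : ∀ k, Sol (F k)) {v : Ed d → ℝ}
    (hv : ∀ x, Tendsto (fun k => F k x) atTop (𝓝 (v x))) (a : Ed d) {ψ : Ed d → ℝ}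
    (hψ : ContDiff ℝ 2 ψ) (hψc : HasCompactSupport ψ) :
    Tendsto (fun k => Jt (F k) a ψ) atTop (𝓝 (Jt v a ψ)) := by
  obtain ⟨M, hM0, hM⟩ := exists_grad_bound d
  obtain ⟨B, hB⟩ := hψc.isCompact.exists_bound_of_continuousOn
    (show Continuous fun x => |Laplacian.laplacian ψ x| + 4 * |ψ x| from
      (continuous_lap hψ).abs.add (hψ.continuous.abs.const_mul 4)).continuousOn
  refine lim_integral hψc.isCompact (C := M * ‖a‖ * B)
    (fun k => (continuous_Dd (hs k).smooth a).abs.mul
      (continuous_Lop ((((hs k).smooth.continuous).pow 2).const_mul 3 |>.sub continuous_const) hψ))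
    (fun k x hx => by rw [Lop_zero_off hψ hx, mul_zero]) (fun k x hx => ?_) fun x => ?_
  · rw [abs_mul, abs_abs]
    refine mul_le_mul (abs_Dd_le (hM _ (hs k)) a x) ?_ (abs_nonneg _) (by positivity)
    refine (abs_add_le _ _).trans ?_
    rw [abs_neg, abs_mul]
    refine le_trans (add_le_add le_rfl (mul_le_mul_of_nonneg_right ?_ (abs_nonneg _)))
      ((le_abs_self _).trans (by simpa [Real.norm_eq_abs] using hB x hx))
    obtain ⟨c1, c2⟩ := abs_le.1 ((hs k).bdd x)
    rw [abs_le]; constructor <;> nlinarith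
  · exact (tendsto_Dd hs hv a x).abs.mul
      (((((hv x).pow 2).const_mul 3).sub_const 1).mul_const _ |>.const_add _)

variable {L : Ed d ≃L[ℝ] (Ix m r → ℝ)} {τ : Fin m → Ed d}

/-- In a set of lattice points of positive density, translates converge to a solution whose
derivatives have constant sign. -/
lemma select (hτ : Adapted L τ) {u : Ed d → ℝ} (h : Sol u) (hst : Stable u) (hgr : Growth L u)
    {s : Set (Fin m → ℤ)} {c : ℝ} (hc : 0 < c)
    (hfreq : ∃ᶠ N : ℕ in atTop, c * (2 * (N : ℝ) + 1) ^ m ≤ cnt m N s) :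
    ∃ k : ℕ → Fin m → ℤ, (∀ j, k j ∈ s) ∧ ∃ v, Sol v ∧ Stable v ∧
      (∀ a, (∀ x, Dd v a x = 0) ∨ (∀ x, 0 < Dd v a x) ∨ ∀ x, Dd v a x < 0) ∧
      ∀ x, Tendsto (fun j => u (x + sh τ (k j))) atTop (𝓝 (v x)) := by
  classical
  set F : (Fin m → ℤ) → ℕ → ℝ := fun k i => if 0 < (tp d i).2.2 then
    |Jt (fun y => u (y + sh τ k)) (tp d i).1 (tst (tp d i).2.1 (tp d i).2.2)| else 0 with hFdef
  have hF0 : ∀ k i, 0 ≤ F k i := fun k i => by
    simp only [hFdef]; split_ifs <;> simp
  have hex : ∀ j : ℕ, ∃ k ∈ s, ∀ i < j, F k i ≤ 1 / ((j : ℝ) + 1) := by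
    intro j
    set η : ℝ := c / (2 * ((j : ℝ) + 1) ^ 2) with hηdef
    have hη : 0 < η := by positivity
    have hev : ∀ i ∈ Finset.range j, ∀ᶠ N : ℕ in atTop,
        ∑ k ∈ lat m N, F k i ≤ η * (2 * (N : ℝ) + 1) ^ m := fun i _ => by
      by_cases hi : 0 < (tp d i).2.2
      · simp only [hFdef, if_pos hi]
        exact average hτ h hst hgr _ (contDiff_tst _ _) (hasCompactSupport_tst _ hi) hη
      · simp only [hFdef, if_neg hi, Finset.sum_const_zero]
        exact Eventually.of_forall fun N => by positivity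
    obtain ⟨N, hN, hsum⟩ :=
      (hfreq.and_eventually ((Finset.eventually_all (Finset.range j)).2 hev)).exists
    by_contra hno
    push Not at hno
    rw [cnt_eq] at hN
    have h1 : (1 / ((j : ℝ) + 1)) * ((lat m N).filter fun k => k ∈ s).card
        ≤ j * (η * (2 * (N : ℝ) + 1) ^ m) := by
      calc (1 / ((j : ℝ) + 1)) * ((lat m N).filter fun k => k ∈ s).card
          = ∑ k ∈ (lat m N).filter fun k => k ∈ s, 1 / ((j : ℝ) + 1) := by
            rw [Finset.sum_const, nsmul_eq_mul, mul_comm]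
        _ ≤ ∑ k ∈ (lat m N).filter fun k => k ∈ s, ∑ i ∈ Finset.range j, F k i := by
            refine Finset.sum_le_sum fun k hk => ?_
            obtain ⟨i, hi, hlt⟩ := hno k (Finset.mem_filter.1 hk).2
            exact hlt.le.trans (Finset.single_le_sum (fun i _ => hF0 k i) (Finset.mem_range.2 hi))
        _ ≤ ∑ k ∈ lat m N, ∑ i ∈ Finset.range j, F k i :=
            Finset.sum_le_sum_of_subset_of_nonneg (Finset.filter_subset _ _)
              fun k _ _ => Finset.sum_nonneg fun i _ => hF0 k i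
        _ = ∑ i ∈ Finset.range j, ∑ k ∈ lat m N, F k i := Finset.sum_comm
        _ ≤ ∑ _i ∈ Finset.range j, η * (2 * (N : ℝ) + 1) ^ m :=
            Finset.sum_le_sum fun i hi => hsum i hi
        _ = _ := by simp
    have hp : 0 < (2 * (N : ℝ) + 1) ^ m := by positivity
    have h2 := (mul_le_mul_of_nonneg_left hN (by positivity : (0 : ℝ) ≤ 1 / ((j : ℝ) + 1))).trans h1
    rw [hηdef] at h2
    field_simp at h2
    nlinarith [mul_pos hc hp]
  choose k hk hkF using hex
  obtain ⟨φ, hφ, v, hv, hlim⟩ := exists_subseq fun j => h.translate (sh τ (k j))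
  refine ⟨fun j => k (φ j), fun j => hk _, v, hv,
    stable_of_limit (fun j => h.translate _) (fun j => Stable.translate hst _) hlim, fun a => ?_, hlim⟩
  refine sign_of_weak hv a fun x₀ R hR => Jt_eq_zero_of_dense hv (fun i hi => ?_) a x₀ hR
  refine abs_eq_zero.1 (le_antisymm ?_ (abs_nonneg _))
  refine le_of_tendsto_of_tendsto (tendsto_Jt (fun j => h.translate (sh τ (k (φ j)))) hlim _
      (contDiff_tst _ _) (hasCompactSupport_tst _ hi)).abs
    (tendsto_one_div_add_atTop_nhds_zero_nat.comp hφ.tendsto_atTop) ?_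
  filter_upwards [hφ.tendsto_atTop.eventually_gt_atTop i] with j hj
  have := hkF (φ j) i hj
  simpa [hFdef, if_pos hi] using this

end Vale.Agent.P134.Periodic
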