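/-
P134 (De Giorgi): one-dimensional approximation at most lattice points, and recurrence.
-/
import Vale.Agent.P134.Limit.OneDim
import Vale.Agent.P134.Stat.Select
import Vale.Agent.P134.Coords

open MeasureTheory Filter Topology
open scoped InnerProductSpace

noncomputable section

namespace Vale.Agent.P134.Periodic

variable {d m r : ℕ}

/-- Derivatives of constant sign make a function one-dimensional. -/
lemma oneD_of_sign (hd : 0 < d) {v : Ed d → ℝ} (h : Sol v)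
    (hsign : ∀ a, (∀ x, Dd v a x = 0) ∨ (∀ x, 0 < Dd v a x) ∨ ∀ x, Dd v a x < 0) :
    ∃ ω : Ed d, ‖ω‖ = 1 ∧ ∃ p : ℝ → ℝ, ∀ x, v x = p ⟪ω, x⟫_ℝ := by
  have hdiff := h.smooth.differentiable (by norm_num)
  obtain ⟨ω, hω, q, hgrad⟩ : ∃ ω : Ed d, ‖ω‖ = 1 ∧ ∃ q : Ed d → ℝ,
      ∀ x a, fderiv ℝ v x a = q x * ⟪ω, a⟫_ℝ := by
    by_cases hc : ∃ a x, Dd v a x ≠ 0
    · obtain ⟨ω, hω, -, hg⟩ := gradient_of_sign hsign hc
      exact ⟨ω, hω, _, hg⟩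
    · push Not at hc
      exact ⟨bb ⟨0, hd⟩, norm_bb _, fun _ => 0, fun x a => by simpa [Dd] using hc a x⟩
  exact ⟨ω, hω, fun t => v (t • ω), fun x => eq_of_gradient hdiff hω hgrad x⟩

/-- Lattice points where `u` is `ε`-far from every one-dimensional function on a ball. -/
def far (u : Ed d → ℝ) (τ : Fin m → Ed d) (R ε : ℝ) : Set (Fin m → ℤ) :=
  {k | ¬ ∃ ω : Ed d, ‖ω‖ = 1 ∧ ∃ p : ℝ → ℝ, ∀ x, ‖x‖ ≤ R → |u (x + sh τ k) - p ⟪ω, x⟫_ℝ| ≤ ε}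

/-- Lattice points to which `u` returns. -/
def ret (u : Ed d → ℝ) (τ : Fin m → Ed d) (R ε : ℝ) : Set (Fin m → ℤ) :=
  {k | ∀ x, ‖x‖ ≤ R → |u (x + sh τ k) - u x| ≤ ε}

variable {L : Ed d ≃L[ℝ] (Ix m r → ℝ)} {τ : Fin m → Ed d}

/-- Almost all lattice points are close to one-dimensional. -/
lemma flat (hd : 0 < d) (hτ : Adapted L τ) {u : Ed d → ℝ} (h : Sol u) (hst : Stable u)
    (hgr : Growth L u) (R : ℝ) {ε δ : ℝ} (hε : 0 < ε) (hδ : 0 < δ) :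
    ∀ᶠ N : ℕ in atTop, (cnt m N (far u τ R ε) : ℝ) ≤ δ * (2 * (N : ℝ) + 1) ^ m := by
  by_contra hc
  rw [not_eventually] at hc
  obtain ⟨k, hk, v, hv, -, hsign, hlim⟩ :=
    select hτ h hst hgr hδ (hc.mono fun N hN => (not_le.1 hN).le)
  obtain ⟨ω, hω, p, hp⟩ := oneD_of_sign hd hv hsign
  obtain ⟨j, hj⟩ :=
    (eventually_close (fun j => h.translate (sh τ (k j))) hlim R hε).exists
  exact hk j ⟨ω, hω, p, fun x hx => by rw [← hp x]; exact hj x hx⟩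

/-- A function close to one-dimensional functions on large balls is one-dimensional. -/
lemma oneD_of_approx {u : Ed d → ℝ} (hu : Continuous u)
    (happ : ∀ n : ℕ, ∃ ω : Ed d, ‖ω‖ = 1 ∧ ∃ p : ℝ → ℝ,
      ∀ x, ‖x‖ ≤ (n : ℝ) + 1 → |u x - p ⟪ω, x⟫_ℝ| ≤ 1 / ((n : ℝ) + 1)) :
    ∃ ω : Ed d, ‖ω‖ = 1 ∧ ∃ p : ℝ → ℝ, ∀ x, u x = p ⟪ω, x⟫_ℝ := by
  choose ω hω p hp using happ
  obtain ⟨w, hw, φ, hφ, hlim⟩ := (isCompact_sphere (0 : Ed d) 1).tendsto_subseq (x := ω)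
    (fun n => by simp [hω])
  refine ⟨w, by simpa using hw, fun t => u (t • w), fun x => ?_⟩
  set q : Ed d := ⟪w, x⟫_ℝ • w with hqdef
  have hww : ⟪w, w⟫_ℝ = 1 := by
    rw [real_inner_self_eq_norm_sq, show ‖w‖ = 1 by simpa using hw]; norm_num
  have horth : ⟪w, q - x⟫_ℝ = 0 := by
    rw [hqdef, inner_sub_right, real_inner_smul_right, hww]; ring
  set y : ℕ → Ed d := fun j => x + ⟪ω (φ j), q - x⟫_ℝ • ω (φ j) with hydef
  have hy : Tendsto y atTop (𝓝 x) := by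
    have h1 : Tendsto (fun j => ⟪ω (φ j), q - x⟫_ℝ) atTop (𝓝 0) := by
      rw [← horth]
      exact ((continuous_id.inner continuous_const).tendsto w).comp hlim
    simpa using (h1.smul hlim).const_add x
  have hyi : ∀ j, ⟪ω (φ j), y j⟫_ℝ = ⟪ω (φ j), q⟫_ℝ := fun j => by
    simp only [hydef, inner_add_right, real_inner_smul_right, inner_sub_right,
      real_inner_self_eq_norm_sq, hω]
    ring
  have hev : ∀ᶠ j : ℕ in atTop, |u (y j) - u q| ≤ 2 * (1 / (((φ j : ℕ) : ℝ) + 1)) := by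
    obtain ⟨N, hN⟩ := exists_nat_ge (max (‖x‖ + 1) ‖q‖)
    filter_upwards [hφ.tendsto_atTop.eventually_ge_atTop N,
      hy.norm.eventually (eventually_le_nhds (lt_add_one ‖x‖))] with j hj hjy
    have hj' : (N : ℝ) ≤ (φ j : ℕ) := by exact_mod_cast hj
    have a1 := hp (φ j) (y j) (by linarith [le_max_left (‖x‖ + 1) ‖q‖])
    have a2 := hp (φ j) q (by linarith [le_max_right (‖x‖ + 1) ‖q‖])
    rw [hyi] at a1
    obtain ⟨b1, b2⟩ := abs_le.1 a1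
    obtain ⟨c1, c2⟩ := abs_le.1 a2
    rw [abs_le]; constructor <;> linarith
  refine sub_eq_zero.1 (abs_nonpos_iff.1 (le_of_tendsto_of_tendsto
    ((((hu.tendsto x).comp hy).sub_const (u q)).abs) ?_ hev))
  simpa using ((tendsto_one_div_add_atTop_nhds_zero_nat (𝕜 := ℝ)).comp
    hφ.tendsto_atTop).const_mul 2

/-- Recurrence together with flatness at most lattice points gives one-dimensional symmetry. -/
lemma oneD_of_recurrent {u : Ed d → ℝ} (hu : Continuous u)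
    (hflat : ∀ R ε δ : ℝ, 0 < ε → 0 < δ →
      ∀ᶠ N : ℕ in atTop, (cnt m N (far u τ R ε) : ℝ) ≤ δ * (2 * (N : ℝ) + 1) ^ m)
    (hrec : ∀ R ε : ℝ, 0 < ε → ∃ c > 0, ∃ᶠ N : ℕ in atTop,
      c * (2 * (N : ℝ) + 1) ^ m ≤ cnt m N (ret u τ R ε)) :
    ∃ ω : Ed d, ‖ω‖ = 1 ∧ ∃ p : ℝ → ℝ, ∀ x, u x = p ⟪ω, x⟫_ℝ := by
  classical
  refine oneD_of_approx hu fun n => ?_
  set ε : ℝ := 1 / (2 * ((n : ℝ) + 1)) with hεdef
  have hε : 0 < ε := by positivity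
  obtain ⟨c, hc, hfreq⟩ := hrec ((n : ℝ) + 1) ε hε
  obtain ⟨N, hr, hf⟩ :=
    (hfreq.and_eventually (hflat ((n : ℝ) + 1) ε (c / 2) hε (half_pos hc))).exists
  obtain ⟨k, hk, hk'⟩ : ∃ k ∈ ret u τ ((n : ℝ) + 1) ε, k ∉ far u τ ((n : ℝ) + 1) ε := by
    by_contra hno
    push Not at hno
    have hle : cnt m N (ret u τ ((n : ℝ) + 1) ε) ≤ cnt m N (far u τ ((n : ℝ) + 1) ε) := by
      rw [cnt_eq, cnt_eq]
      exact Finset.card_le_card fun k hk => Finset.mem_filter.2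
        ⟨(Finset.mem_filter.1 hk).1, hno k (Finset.mem_filter.1 hk).2⟩
    have hle' : (cnt m N (ret u τ ((n : ℝ) + 1) ε) : ℝ) ≤ cnt m N (far u τ ((n : ℝ) + 1) ε) := by
      exact_mod_cast hle
    have hp : 0 < (2 * (N : ℝ) + 1) ^ m := by positivity
    nlinarith [mul_pos hc hp]
  obtain ⟨ω, hω, p, hp⟩ := not_not.1 hk'
  refine ⟨ω, hω, p, fun x hx => ?_⟩
  have e : 1 / ((n : ℝ) + 1) = ε + ε := by rw [hεdef]; field_simp; ring
  obtain ⟨b1, b2⟩ := abs_le.1 (hp x hx)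
  obtain ⟨c1, c2⟩ := abs_le.1 (hk x hx)
  rw [abs_le, e]; constructor <;> linarith

end Vale.Agent.P134.Periodic
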