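/-
P134 (De Giorgi): quadratic energy growth of a monotone solution along a codimension-three
lattice.
-/
import Vale.Agent.P134.Limit.Energy
import Vale.Agent.P134.Stat.Flat

open MeasureTheory Filter Topology
open scoped InnerProductSpace

noncomputable section

namespace Vale.Agent.P134.Periodic

variable {d m : ℕ}

/-- Energies converge along pointwise convergent sequences of solutions. -/
lemma tendsto_energy {F : ℕ → Ed d → ℝ} (hs : ∀ k, Sol (F k)) {v : Ed d → ℝ}
    (hv : ∀ x, Tendsto (fun k => F k x) atTop (𝓝 (v x))) {χ : Ed d → ℝ} (hχ : Continuous χ)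
    (hc : HasCompactSupport χ) :
    Tendsto (fun k => ∫ x, χ x * energy (F k) x) atTop (𝓝 (∫ x, χ x * energy v x)) := by
  obtain ⟨M, hM0, hM⟩ := exists_grad_bound d
  obtain ⟨P, hP⟩ := hc.isCompact.exists_bound_of_continuousOn hχ.continuousOn
  refine lim_integral hc.isCompact (C := P * ((d : ℝ) * (M * M) + 1))
    (fun k => hχ.mul (continuous_energy (hs k).smooth))
    (fun k x hx => by rw [image_eq_zero_of_notMem_tsupport hx, zero_mul]) (fun k x hx => ?_)
    fun x => ?_
  · have h1 : G (F k) (F k) x ≤ (d : ℝ) * (M * M) := by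
      calc G (F k) (F k) x ≤ ∑ _i : Fin d, M * M := Finset.sum_le_sum fun i _ => by
            rw [← abs_mul_abs_self]
            exact mul_self_le_mul_self (abs_nonneg _) (abs_pd_le (hM _ (hs k)) i x)
        _ = _ := by simp
    have h2 : (1 - F k x ^ 2) ^ 2 ≤ 1 := by
      have := (sq_le_one_iff_abs_le_one _).2 ((hs k).bdd x)
      nlinarith [sq_nonneg (F k x)]
    have h3 : energy (F k) x ≤ (d : ℝ) * (M * M) + 1 := by
      have := G_self_nonneg (F k) x
      rw [energy]; linarith
    rw [abs_mul, abs_of_nonneg (energy_nonneg _ _)]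
    exact mul_le_mul (by simpa [Real.norm_eq_abs] using hP x hx) h3 (energy_nonneg _ _)
      (le_trans (norm_nonneg _) (hP x hx))
  · have hp : ∀ i, Tendsto (fun k => pd (F k) i x) atTop (𝓝 (pd v i x)) := fun i =>
      tendsto_Dd hs hv (bb i) x
    exact (((tendsto_finsetSum Finset.univ fun i _ => (hp i).mul (hp i)).div_const 2).add
      ((((((hv x).pow 2).const_sub 1).pow 2)).div_const 4)).const_mul _

lemma exists_energy_bound (d : ℕ) :
    ∃ E, 0 ≤ E ∧ ∀ u : Ed d → ℝ, Sol u → ∀ x, energy u x ≤ E := by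
  obtain ⟨M, hM0, hM⟩ := exists_grad_bound d
  refine ⟨(d : ℝ) * (M * M) + 1, by positivity, fun u h x => ?_⟩
  have h1 : G u u x ≤ (d : ℝ) * (M * M) := by
    calc G u u x ≤ ∑ _i : Fin d, M * M := Finset.sum_le_sum fun i _ => by
          rw [← abs_mul_abs_self]
          exact mul_self_le_mul_self (abs_nonneg _) (abs_pd_le (hM u h) i x)
      _ = _ := by simp
  have h2 : (1 - u x ^ 2) ^ 2 ≤ 1 := by
    have := (sq_le_one_iff_abs_le_one _).2 (h.bdd x)
    nlinarith [sq_nonneg (u x)]
  have := G_self_nonneg u x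
  rw [energy]; linarith

lemma exists_adapted {r : ℕ} {τ : Fin m → Ed d} (hτ : LinearIndependent ℝ τ) (hd : d = m + r) :
    ∃ L : Ed d ≃L[ℝ] (Ix m r → ℝ), Adapted L τ := by
  obtain ⟨B0, hB⟩ := exists_basis_ext (r := r) hτ hd
  refine ⟨B0.equivFun.toContinuousLinearEquiv, fun i => ?_⟩
  apply B0.equivFun.toContinuousLinearEquiv.injective
  rw [ContinuousLinearEquiv.apply_symm_apply, ← hB i]
  ext j
  simp [Pi.single_apply, eq_comm]

lemma prof_translate (u : Ed d → ℝ) (e T : Ed d) (x : Ed d) :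
    prof (fun y => u (y + T)) e x = prof u e (x + T) := by
  refine iSup_congr fun k => ?_
  show u (x + (k : ℝ) • e + T) = u (x + T + (k : ℝ) • e)
  rw [add_right_comm]

lemma prof_shift_int {u : Ed d → ℝ} {e : Ed d} (h : Sol u) (hmono : ∀ x, 0 < Dd u e x) (l : ℤ)
    (x : Ed d) : prof u e (x + (l : ℝ) • e) = prof u e x := by
  induction l using Int.induction_on generalizing x with
  | zero => simp
  | succ l ih =>
    push_cast
    rw [add_smul, one_smul, ← add_assoc, prof_shift h hmono]
    exact_mod_cast ih x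
  | pred l ih =>
    push_cast
    have h1 := prof_shift h hmono (x + (-(l : ℝ) - 1) • e)
    rw [show x + (-(l : ℝ) - 1) • e + e = x + (-(l : ℝ)) • e by rw [sub_smul, one_smul]; abel] at h1
    rw [← h1]
    exact_mod_cast ih x

/-- Selection for the profile: one more period and two free directions. -/
lemma select_prof {τ : Fin m → Ed d} (hτ : LinearIndependent ℝ τ) (hd : d = m + 3)
    {u : Ed d → ℝ} (h : Sol u) {e : Ed d} (hmono : ∀ x, 0 < Dd u e x)
    (he : e ∉ Submodule.span ℝ (Set.range τ)) {s : Set (Fin m → ℤ)} {c : ℝ} (hc : 0 < c)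
    (hfreq : ∃ᶠ N : ℕ in atTop, c * (2 * (N : ℝ) + 1) ^ m ≤ cnt m N s) :
    ∃ k : ℕ → Fin m → ℤ, (∀ j, k j ∈ s) ∧ ∃ v, Sol v ∧ Stable v ∧
      (∀ a, (∀ x, Dd v a x = 0) ∨ (∀ x, 0 < Dd v a x) ∨ ∀ x, Dd v a x < 0) ∧
      ∀ x, Tendsto (fun j => prof u e (x + sh τ (k j))) atTop (𝓝 (v x)) := by
  classical
  set τ' : Fin (m + 1) → Ed d := Fin.cons e τ with hτ'
  obtain ⟨L, hL⟩ := exists_adapted (r := 2) (linearIndependent_finCons.2 ⟨hτ, he⟩ :
    LinearIndependent ℝ τ') (by omega)
  have hv := sol_prof h hmono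
  have hgr := growth_two L hv.smooth hv.bdd hv.eqn
  have hfreq' : ∃ᶠ N : ℕ in atTop, c * (2 * (N : ℝ) + 1) ^ (m + 1)
      ≤ cnt (m + 1) N {k | Fin.tail k ∈ s} := by
    refine hfreq.mono fun N hN => ?_
    have hle : (2 * N + 1) * cnt m N s ≤ cnt (m + 1) N {k | Fin.tail k ∈ s} := by
      rw [cnt_eq, cnt_eq]
      calc (2 * N + 1) * ((lat m N).filter fun k => k ∈ s).card
          = ((Finset.Icc (-(N : ℤ)) N ×ˢ ((lat m N).filter fun k => k ∈ s)).map
              ⟨fun p => (Fin.cons p.1 p.2 : Fin (m + 1) → ℤ), fun p q hpq =>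
                Prod.ext (by simpa using congrFun hpq 0)
                  (funext fun i => by simpa using congrFun hpq i.succ)⟩).card := by
            rw [Finset.card_map, Finset.card_product, Int.card_Icc]
            congr 1
            omega
        _ ≤ _ := by
            refine Finset.card_le_card fun k hk => ?_
            obtain ⟨⟨a, b⟩, hab, rfl⟩ := Finset.mem_map.1 hk
            obtain ⟨ha, hb⟩ := Finset.mem_product.1 hab
            obtain ⟨hb1, hb2⟩ := Finset.mem_filter.1 hb
            refine Finset.mem_filter.2 ⟨mem_lat.2 fun i => ?_, ?_⟩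
            · show |(Fin.cons a b : Fin (m + 1) → ℤ) i| ≤ _
              refine Fin.cases ?_ ?_ i
              · simpa [abs_le] using Finset.mem_Icc.1 ha
              · intro j; simpa using mem_lat.1 hb1 j
            · show Fin.tail (Fin.cons a b : Fin (m + 1) → ℤ) ∈ s
              rwa [Fin.tail_cons]
    have hle' : ((2 * N + 1 : ℕ) : ℝ) * cnt m N s ≤ cnt (m + 1) N {k | Fin.tail k ∈ s} := by
      exact_mod_cast hle
    refine le_trans ?_ hle'
    push_cast
    rw [pow_succ', mul_left_comm]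
    exact mul_le_mul_of_nonneg_left hN (by positivity)
  obtain ⟨k, hk, v, hv', hst, hsign, hlim⟩ :=
    select hL hv (stable_prof h hmono) hgr hc hfreq'
  refine ⟨fun j => Fin.tail (k j), hk, v, hv', hst, hsign, fun x => (hlim x).congr fun j => ?_⟩
  have e1 : sh τ' (k j) = (k j 0 : ℝ) • e + sh τ (Fin.tail (k j)) := by
    simp [sh, hτ', Fin.sum_univ_succ, Fin.tail]
  rw [e1, show x + ((k j 0 : ℝ) • e + sh τ (Fin.tail (k j)))
    = x + sh τ (Fin.tail (k j)) + (k j 0 : ℝ) • e by abel, prof_shift_int h hmono]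

variable {L : Ed d ≃L[ℝ] (Ix m 3 → ℝ)} {τ : Fin m → Ed d}

/-- The standard bump of width `R`. -/
def chi (L : Ed d ≃L[ℝ] (Ix m 3 → ℝ)) (R : ℝ) : Ed d → ℝ := Pb L Finset.univ fun _ => R

lemma hasCompactSupport_chi {R : ℝ} (hR : 0 < R) : HasCompactSupport (chi L R) :=
  HasCompactSupport.intro (isCompact_box L fun _ => 2 * R) fun x hx => by
    simp only [box, Set.mem_ofPred_eq, not_forall, not_le] at hx
    obtain ⟨j, hj⟩ := hx
    exact Pb_zero L (fun _ _ => hR) (Finset.mem_univ j) hj.le

lemma exists_var1_chi (L : Ed d ≃L[ℝ] (Ix m 3 → ℝ)) :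
    ∃ A, 0 ≤ A ∧ ∀ R : ℝ, 1 ≤ R → ∫ x, var1 (chi L R) x ≤ A * R ^ (m + 2) := by
  obtain ⟨M, hMb0, hMb⟩ := exists_deriv_bump_bound
  obtain ⟨Λ, hΛ0, hΛ⟩ := exists_Lambda L
  obtain ⟨c, hc0, hc⟩ := exists_volume_box L
  set A : ℝ := (d : ℝ) * ((Fintype.card (Ix m 3) : ℝ) * (M * Λ)) with hA
  refine ⟨A * c * 4 ^ (m + 3), by positivity, fun R hR => ?_⟩
  have hR0 : 0 < R := by linarith
  set w2 : Ix m 3 → ℝ := fun _ => 2 * R with hw2
  have hsub : tsupport (chi L R) ⊆ box L w2 := tsupport_subset_box L fun x hx => by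
    simp only [box, Set.mem_ofPred_eq, not_forall, not_le] at hx
    obtain ⟨j, hj⟩ := hx
    exact Pb_zero L (fun _ _ => hR0) (Finset.mem_univ j) hj.le
  have h1 : ∫ x, var1 (chi L R) x ≤ ∫ x, (box L w2).indicator (fun _ => A / R) x := by
    refine integral_mono (integrable_var1 (contDiff_Pb L _ _) (hasCompactSupport_chi hR0))
      (((continuous_const : Continuous fun _ : Ed d => A / R).continuousOn.integrableOn_compact
        (isCompact_box L w2)).integrable_indicator (measurableSet_box L w2)) fun x => ?_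
    by_cases hx : x ∈ box L w2
    · rw [Set.indicator_of_mem hx]
      calc var1 (chi L R) x ≤ ∑ _i : Fin d, (Fintype.card (Ix m 3) : ℝ) * (M * Λ) / R := by
            refine Finset.sum_le_sum fun i _ =>
              (abs_pd_Pb L hMb hΛ (fun _ _ => hR0) i x).trans (le_of_eq ?_)
            simp [mul_div_assoc]
        _ = A / R := by simp [hA, mul_div_assoc]
    · rw [Set.indicator_of_notMem hx]
      exact le_of_eq (var1_zero_off fun hc' => hx (hsub hc'))
  refine h1.trans (le_of_eq ?_)
  rw [integral_indicator_const _ (measurableSet_box L w2),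
    hc w2 (fun j => by simp only [hw2]; linarith), smul_eq_mul]
  simp only [hw2, Finset.prod_const, Finset.card_univ, Fintype.card_sum, Fintype.card_fin]
  rw [show (2 : ℝ) * (2 * R) = 4 * R by ring, mul_pow, pow_succ R (m + 2)]
  field_simp

/-- The energy in a bump, summed over the lattice. -/
lemma sum_energy_le (hli : LinearIndependent ℝ τ) (hd : d = m + 3) {u : Ed d → ℝ} (h : Sol u)
    {e : Ed d} (hmono : ∀ x, 0 < Dd u e x) (he : e ∉ Submodule.span ℝ (Set.range τ)) :
    ∃ C, 0 ≤ C ∧ ∀ χ : Ed d → ℝ, ContDiff ℝ 1 χ → HasCompactSupport χ → (∀ x, 0 ≤ χ x) →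
      ∀ᶠ N : ℕ in atTop, ∑ k ∈ lat m N, ∫ x, χ x * energy (fun y => u (y + sh τ k)) x
        ≤ (C * (∫ x, var1 χ x) + 2) * (2 * (N : ℝ) + 1) ^ m := by
  classical
  obtain ⟨M1, hM10, hM1⟩ := exists_grad_bound d
  obtain ⟨M2, hM20, hM2⟩ := energy_le_of_sign (d := d) (by omega)
  obtain ⟨E, hE0, hE⟩ := exists_energy_bound d
  refine ⟨M2 + 2 * M1, by positivity, fun χ hχ hχc hχ0 => ?_⟩
  set V := ∫ x, var1 χ x with hV
  have hV0 : 0 ≤ V := integral_nonneg (var1_nonneg χ)
  set K := E * ∫ x, χ x with hKdef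
  have hK0 : 0 ≤ K := mul_nonneg hE0 (integral_nonneg hχ0)
  set f : (Fin m → ℤ) → ℝ := fun k => ∫ x, χ x * energy (fun y => prof u e (y + sh τ k)) x
    with hfdef
  have hv := sol_prof h hmono
  set s : Set (Fin m → ℤ) := {k | M2 * V + 1 < f k} with hsdef
  have hdens : ∀ᶠ N : ℕ in atTop, (cnt m N s : ℝ) ≤ 1 / (K + 1) * (2 * (N : ℝ) + 1) ^ m := by
    by_contra hc
    rw [not_eventually] at hc
    obtain ⟨k, hk, v, hv', hst, hsign, hlim⟩ := select_prof hli hd h hmono he
      (by positivity : (0 : ℝ) < 1 / (K + 1)) (hc.mono fun N hN => (not_le.1 hN).le)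
    have h1 : M2 * V + 1 ≤ ∫ x, χ x * energy v x :=
      ge_of_tendsto' (tendsto_energy (fun j => hv.translate (sh τ (k j))) hlim hχ.continuous hχc)
        fun j => (hk j).le
    linarith [hM2 v hv' hst hsign χ hχ hχc hχ0]
  filter_upwards [hdens] with N hN
  have hfb : ∀ k, f k ≤ K := fun k => by
    simp only [hfdef, hKdef]
    rw [← integral_const_mul]
    refine integral_mono (integrable_off (hχ.continuous.mul
        (continuous_energy (hv.translate _).smooth)) hχc fun x hx => by
          show χ x * _ = 0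
          rw [image_eq_zero_of_notMem_tsupport hx, zero_mul])
      ((hχ.continuous.integrable_of_hasCompactSupport hχc).const_mul E) fun x => ?_
    rw [mul_comm E]
    exact mul_le_mul_of_nonneg_left (hE _ (hv.translate _) x) (hχ0 x)
  have hcmp : ∀ k, ∫ x, χ x * energy (fun y => u (y + sh τ k)) x
      ≤ (2 * M1 * V + (M2 * V + 1)) + if k ∈ s then K else 0 := by
    intro k
    have ht : ∀ x, 0 < Dd (fun y => u (y + sh τ k)) e x := fun x => by
      rw [Dd_translate]; exact hmono _
    have h1 : ∫ x, χ x * energy (fun y => u (y + sh τ k)) x ≤ f k + 2 * M1 * V := by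
      have hl := tendsto_energy (fun j => (h.translate (sh τ k)).translate ((j : ℝ) • e))
        (fun x => (tendsto_prof (h.translate (sh τ k)) ht x)) hχ.continuous hχc
      rw [show prof (fun y => u (y + sh τ k)) e = fun y => prof u e (y + sh τ k) from
        funext fun y => prof_translate u e _ y] at hl
      exact ge_of_tendsto' (hl.add_const (2 * M1 * V)) fun j =>
        energy_le_slide (h.translate _) ht hM10 hM1 hχ hχc j
    split_ifs with hk
    · nlinarith [hfb k]
    · have h2 : f k ≤ M2 * V + 1 := not_lt.1 hk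
      linarith
  refine (Finset.sum_le_sum fun k _ => hcmp k).trans ?_
  rw [Finset.sum_add_distrib, Finset.sum_const, nsmul_eq_mul, card_lat,
    ← Finset.sum_filter, Finset.sum_const, nsmul_eq_mul, ← cnt_eq]
  have hp : 0 ≤ (2 * (N : ℝ) + 1) ^ m := by positivity
  have h3 : (cnt m N s : ℝ) * K ≤ (2 * (N : ℝ) + 1) ^ m := by
    refine (mul_le_mul_of_nonneg_right hN hK0).trans ?_
    rw [div_mul_eq_mul_div, one_mul, div_mul_eq_mul_div, div_le_iff₀ (by positivity)]
    exact mul_le_mul_of_nonneg_left (le_add_of_nonneg_right zero_le_one) hp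
  linarith

/-- Quadratic growth along a codimension-three lattice. -/
lemma growth_lattice (hτ : Adapted L τ) (hli : LinearIndependent ℝ τ) (hd : d = m + 3)
    {u : Ed d → ℝ} (h : Sol u) {e : Ed d} (hmono : ∀ x, 0 < Dd u e x)
    (he : e ∉ Submodule.span ℝ (Set.range τ)) : Growth L u := by
  classical
  obtain ⟨C, hC0, hC⟩ := sum_energy_le hli hd h hmono he
  obtain ⟨A, hA0, hA⟩ := exists_var1_chi L
  refine ⟨2 * (C * A + 2) * 11 ^ m, by positivity, fun R hR => ?_⟩
  have hR0 : 0 < R := by linarith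
  set χ := chi L R with hχdef
  have hχ : ContDiff ℝ 1 χ := contDiff_Pb L _ _
  have hχc : HasCompactSupport χ := hasCompactSupport_chi hR0
  have hχ0 : ∀ x, 0 ≤ χ x := Pb_nonneg L _ _
  have hev := (tendsto_id.const_mul_atTop' (show 0 < 5 by norm_num)).eventually (hC χ hχ hχc hχ0)
  filter_upwards [hev, eventually_ge_atTop 1,
    tendsto_natCast_atTop_atTop.eventually_ge_atTop R] with N hsum hN1 hNR
  simp only [id] at hsum
  have hN' : (1 : ℝ) ≤ N := by exact_mod_cast hN1
  set en : Ed d → ℝ := energy u with hen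
  have hen0 : ∀ x, 0 ≤ en x := energy_nonneg u
  have htr : ∀ k, (∫ x, χ (x - sh τ k) * en x)
      = ∫ x, χ x * energy (fun y => u (y + sh τ k)) x := fun k => by
    rw [← integral_add_right_eq_self (fun x => χ (x - sh τ k) * en x) (sh τ k)]
    simp only [add_sub_cancel_right, hen, energy, G, pd_translate]
  have hcov : ∀ x, R ^ m * (box L (Sum.elim (fun _ => 4 * (N : ℝ)) fun _ => R)).indicator (G u u) x
      ≤ 2 * ∑ k ∈ lat m (5 * N), χ (x - sh τ k) * en x := by
    intro x
    have hsum0 : 0 ≤ 2 * ∑ k ∈ lat m (5 * N), χ (x - sh τ k) * en x :=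
      mul_nonneg zero_le_two (Finset.sum_nonneg fun k _ => mul_nonneg (hχ0 _) (hen0 x))
    by_cases hx : x ∈ box L (Sum.elim (fun _ => 4 * (N : ℝ)) fun _ => R)
    swap
    · rw [Set.indicator_of_notMem hx, mul_zero]; exact hsum0
    rw [Set.indicator_of_mem hx]
    set t : Fin m → ℝ := fun i => L x (Sum.inl i) with htdef
    set S := Fintype.piFinset fun i => Finset.Icc ⌈t i - R⌉ ⌊t i + R⌋ with hSdef
    have hmem : ∀ k ∈ S, ∀ i, |t i - (k i : ℝ)| ≤ R := fun k hk i => by
      obtain ⟨a1, a2⟩ := Finset.mem_Icc.1 (Fintype.mem_piFinset.1 hk i)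
      have b1 := (Int.le_floor.1 a2)
      have b2 := (Int.ceil_le.1 a1)
      rw [abs_le]; constructor <;> linarith
    have hSsub : S ⊆ lat m (5 * N) := fun k hk => mem_lat.2 fun i => by
      have a1 := abs_le.1 (hmem k hk i)
      have a2 := abs_le.1 (show |t i| ≤ 4 * (N : ℝ) from hx (Sum.inl i))
      have : |(k i : ℝ)| ≤ ((5 * N : ℕ) : ℝ) := by
        push_cast; rw [abs_le]; constructor <;> linarith
      exact_mod_cast this
    have hcard : R ^ m ≤ (S.card : ℝ) := by
      rw [hSdef, Fintype.card_piFinset, Nat.cast_prod]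
      calc R ^ m = ∏ _i : Fin m, R := by simp
        _ ≤ _ := Finset.prod_le_prod (fun _ _ => hR0.le) fun i _ => by
            rw [Int.card_Icc]
            have f1 := Int.lt_floor_add_one (t i + R)
            have f2 := Int.ceil_lt_add_one (t i - R)
            calc R ≤ ((⌊t i + R⌋ + 1 - ⌈t i - R⌉ : ℤ) : ℝ) := by push_cast; linarith
              _ ≤ _ := by exact_mod_cast Int.self_le_toNat _
    have hone : ∀ k ∈ S, χ (x - sh τ k) = 1 := fun k hk => by
      refine Pb_one L (fun _ _ => hR0) fun j _ => ?_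
      rw [map_sub, Pi.sub_apply, coord_sh hτ]
      rcases j with i | i
      · simpa using hmem k hk i
      · simpa using hx (Sum.inr i)
    have hG : G u u x ≤ 2 * en x := by
      simp only [hen, energy]; nlinarith [sq_nonneg (1 - u x ^ 2)]
    calc R ^ m * G u u x ≤ (S.card : ℝ) * (2 * en x) :=
          mul_le_mul hcard hG (G_self_nonneg u x) (Nat.cast_nonneg _)
      _ = 2 * ∑ k ∈ S, χ (x - sh τ k) * en x := by
          rw [Finset.sum_congr rfl fun k hk => by rw [hone k hk, one_mul], Finset.sum_const,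
            nsmul_eq_mul]
          ring
      _ ≤ _ := mul_le_mul_of_nonneg_left (Finset.sum_le_sum_of_subset_of_nonneg hSsub
          fun k _ _ => mul_nonneg (hχ0 _) (hen0 x)) zero_le_two
  have hi : ∀ k, Integrable fun x => χ (x - sh τ k) * en x := fun k =>
    ((hχ.continuous.comp (continuous_id.sub continuous_const)).mul
      (continuous_energy h.smooth)).integrable_of_hasCompactSupport
      ((hχc.comp_homeomorph (Homeomorph.subRight (sh τ k))).mul_right)
  have hint := integral_mono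
    ((((continuous_G h.smooth (by norm_num) h.smooth (by norm_num)).continuousOn.integrableOn_compact
      (isCompact_box L (Sum.elim (fun _ => 4 * (N : ℝ)) fun _ => R))).integrable_indicator
      (measurableSet_box L _)).const_mul _)
    ((integrable_finsetSum _ fun k _ => hi k).const_mul 2) hcov
  rw [integral_const_mul, integral_const_mul, integral_finsetSum _ fun k _ => hi k,
    Finset.sum_congr rfl fun k _ => htr k] at hint
  refine le_of_mul_le_mul_left (hint.trans ((mul_le_mul_of_nonneg_left hsum zero_le_two).trans ?_))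
    (pow_pos hR0 m)
  have h11 : (2 * ((5 * N : ℕ) : ℝ) + 1) ^ m ≤ (11 * (N : ℝ)) ^ m :=
    pow_le_pow_left₀ (by positivity) (by push_cast; linarith) m
  have hV : C * (∫ x, var1 χ x) + 2 ≤ (C * A + 2) * R ^ (m + 2) := by
    have := mul_le_mul_of_nonneg_left (hA R hR) hC0
    have h1 : (1 : ℝ) ≤ R ^ (m + 2) := one_le_pow₀ hR
    nlinarith
  have hV0 : 0 ≤ C * (∫ x, var1 χ x) + 2 := by
    have := mul_nonneg hC0 (integral_nonneg (var1_nonneg χ) : 0 ≤ ∫ x, var1 χ x)
    linarith
  calc 2 * ((C * (∫ x, var1 χ x) + 2) * (2 * ((5 * N : ℕ) : ℝ) + 1) ^ m)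
      ≤ 2 * (((C * A + 2) * R ^ (m + 2)) * (11 * (N : ℝ)) ^ m) :=
        mul_le_mul_of_nonneg_left (mul_le_mul hV h11 (by positivity) (by positivity)) zero_le_two
    _ = _ := by rw [pow_add, mul_pow]; ring

end Vale.Agent.P134.Periodic
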