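/-
P134 (De Giorgi): flatness at almost every lattice point in codimension three, one-dimensional
symmetry under recurrence.
-/
import Vale.Agent.P134.Stat.Growth

open MeasureTheory Filter Topology
open scoped InnerProductSpace

noncomputable section

namespace Vale.Agent.P134.Periodic

variable {d m : ℕ}

/-- Integer combinations of periods are periods. -/
lemma periodic_sh {u : Ed d → ℝ} {τ : Fin m → Ed d} (hper : ∀ i x, u (x + τ i) = u x)
    (k : Fin m → ℤ) (x : Ed d) : u (x + sh τ k) = u x := by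
  refine Finset.sum_induction _ (fun v => ∀ x, u (x + v) = u x)
    (fun a b ha hb x => by rw [← add_assoc, hb, ha]) (fun x => by simp) (fun i _ => ?_) x
  intro x
  rw [Int.cast_smul_eq_zsmul]
  induction k i using Int.induction_on generalizing x with
  | zero => simp
  | succ l ih => rw [add_zsmul, one_zsmul, ← add_assoc, hper, ih]
  | pred l ih =>
    rw [sub_zsmul, one_zsmul]
    have h1 := hper i (x + (-(l : ℤ) • τ i + -τ i))
    rw [show x + (-(l : ℤ) • τ i + -τ i) + τ i = x + -(l : ℤ) • τ i by abel, ih] at h1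
    exact h1.symm

/-- Flatness at almost all lattice points, and symmetry under recurrence. -/
theorem lattice_main (hd : d = m + 3) {τ : Fin m → Ed d} (hli : LinearIndependent ℝ τ)
    {u : Ed d → ℝ} (h : Sol u) {e : Ed d} (hmono : ∀ x, 0 < Dd u e x)
    (he : e ∉ Submodule.span ℝ (Set.range τ)) :
    (∀ R ε δ : ℝ, 0 < ε → 0 < δ →
      ∀ᶠ N : ℕ in atTop, (cnt m N (far u τ R ε) : ℝ) ≤ δ * (2 * (N : ℝ) + 1) ^ m) ∧
    ((∀ R ε : ℝ, 0 < ε → ∃ c > 0, ∃ᶠ N : ℕ in atTop,
        c * (2 * (N : ℝ) + 1) ^ m ≤ cnt m N (ret u τ R ε)) →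
      ∃ ω : Ed d, ‖ω‖ = 1 ∧ ∃ p : ℝ → ℝ, ∀ x, u x = p ⟪ω, x⟫_ℝ) := by
  obtain ⟨L, hL⟩ := exists_adapted (r := 3) hli hd
  have hflat := fun R ε δ => flat (by omega : 0 < d) hL h (stable_of_mono h hmono)
    (growth_lattice hL hli hd h hmono he) R (ε := ε) (δ := δ)
  exact ⟨hflat, oneD_of_recurrent h.smooth.continuous hflat⟩

/-- The periodic case. -/
theorem lattice_periodic (hd : d = m + 3) {τ : Fin m → Ed d} (hli : LinearIndependent ℝ τ)
    {u : Ed d → ℝ} (h : Sol u) {e : Ed d} (hmono : ∀ x, 0 < Dd u e x)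
    (hper : ∀ i x, u (x + τ i) = u x) :
    ∃ ω : Ed d, ‖ω‖ = 1 ∧ ∃ p : ℝ → ℝ, ∀ x, u x = p ⟪ω, x⟫_ℝ := by
  classical
  refine (lattice_main hd hli h hmono (e_notMem_span h hmono hper)).2 fun R ε hε =>
    ⟨1, one_pos, Frequently.of_forall fun N => ?_⟩
  have hall : ∀ k ∈ lat m N, k ∈ ret u τ R ε := fun k _ x _ => by
    simpa [periodic_sh hper] using hε.le
  rw [one_mul, cnt_eq, Finset.filter_true_of_mem hall, card_lat]

end Vale.Agent.P134.Periodic
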